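import Vale.Agent.P183.H330G.Glue
import Vale.Agent.P183.H330.Clauses

/-!
From a system of gated spaces to a representation.
-/

namespace Vale.Agent.P183.H330G

open Vale.Agent.P183 Vale.Agent.P183.H330

variable {L K : Type} [Lattice L] [Lattice K] {f : LatticeHom L K} {lo hi : K → L}

/-- The subgroups between a point stabilizer and `B` are the balls. -/
def IntOK {t : K} (S : Sp f lo t) (B : Subgroup (Equiv.Perm S.X)) (ω : S.X) : Prop :=
  (∀ W : Subgroup (Equiv.Perm S.X), W ≤ B → (∀ g ∈ B, g ω = ω → g ∈ W) →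
    ∃ c, f c = t ∧ ∀ g ∈ B, (g ∈ W ↔ S.d (g ω) ω ≤ c)) ∧
  ∀ a b, f a = t → f b = t → (∀ g ∈ B, S.d (g ω) ω ≤ a → S.d (g ω) ω ≤ b) → a ≤ b

/-- The fibre over `t` has gated universal spaces. -/
def GoodFibre (f : LatticeHom L K) (lo : K → L) (t : K) : Prop :=
  ∀ n, ∃ (S : Sp f lo t) (B : Subgroup (Equiv.Perm S.X)), B ≤ isoSub S ∧ (∀ ω, IntOK S B ω) ∧
    LevOK S B n

/-- Every element of `B s` extends to a compatible family above `s`. -/
theorem exists_ext3 [Finite K] {S : ∀ t, Sp f lo t} {B : ∀ t, Subgroup (Equiv.Perm (S t).X)}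
    {J : ∀ t r, (S r).X → (S t).X} (hJ : ∀ t, Good3 S B t J) (s : K) (g0 : Equiv.Perm (S s).X)
    (hg0 : g0 ∈ B s) :
    ∃ g : ∀ t, Equiv.Perm (S t).X, g s = g0 ∧ ∀ t, s ≤ t → g t ∈ B t ∧
      ∀ r, s ≤ r → r ≤ t → ∀ a, g t (J t r a) = J t r (g r a) := by
  classical
  obtain ⟨g, hg⟩ := exists_family (K := K) (C := fun t => Equiv.Perm (S t).X)
    (fun t g => s ≤ t → g s = g0 ∧ g t ∈ B t ∧
      ∀ r, s ≤ r → r ≤ t → ∀ a, g t (J t r a) = J t r (g r a)) (by
    intro t g g' h hg hst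
    obtain ⟨h1, h2, h3⟩ := hg hst
    refine ⟨by rw [← h s hst]; exact h1, by rw [← h t le_rfl]; exact h2, ?_⟩
    intro r hsr hrt a
    rw [← h t le_rfl, ← h r hrt]
    exact h3 r hsr hrt a) (by
    intro t g hprev
    by_cases hst : s ≤ t
    swap
    · exact ⟨g, fun _ _ => rfl, fun h => absurd h hst⟩
    rcases eq_or_lt_of_le hst with hst' | hst'
    · subst hst'
      refine ⟨Function.update g s g0, fun r hr => Function.update_of_ne hr _ _, fun _ => ?_⟩
      rw [Function.update_self]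
      refine ⟨rfl, hg0, fun r hsr hrs a => ?_⟩
      have : s = r := le_antisymm hsr hrs
      subst this
      rw [Function.update_self, (hJ s).refl, (hJ s).refl]
    · have hprev' : CompatB S B J s t g := fun r hsr hrt => (hprev r hrt hsr).2
      obtain ⟨γ, hγ1, hγ2⟩ := (hJ t).ext s g hprev'
      refine ⟨Function.update g t γ, fun r hr => Function.update_of_ne hr _ _, fun _ => ?_⟩
      have hsne : s ≠ t := hst'.ne
      rw [Function.update_self, Function.update_of_ne hsne]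
      refine ⟨(hprev s hst' le_rfl).1, hγ1, fun r hsr hrt a => ?_⟩
      rcases eq_or_lt_of_le hrt with hrt' | hrt'
      · subst hrt'
        rw [Function.update_self, (hJ r).refl, (hJ r).refl]
      · rw [Function.update_of_ne hrt'.ne]
        exact hγ2 r hsr hrt' a)
  refine ⟨g, (hg s le_rfl).1, fun t ht => (hg t ht).2⟩

section

variable (S : ∀ t, Sp f lo t) (J : ∀ t r, (S r).X → (S t).X)
  (B : ∀ s, Subgroup (Equiv.Perm (S s).X)) (ω : ∀ s, (S s).X)

/-- Compatible families above `s`. -/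
def QQ3 (s : K) : Subgroup (∀ t, Equiv.Perm (S t).X) where
  carrier := {x | ∀ t, s ≤ t → x t ∈ B t ∧
    ∀ r, s ≤ r → r ≤ t → ∀ a, x t (J t r a) = J t r (x r a)}
  one_mem' := fun t _ => ⟨(B t).one_mem, fun _ _ _ _ => rfl⟩
  mul_mem' := by
    rintro x y hx hy t ht
    refine ⟨(B t).mul_mem (hx t ht).1 (hy t ht).1, fun r hr hrt a => ?_⟩
    show x t (y t (J t r a)) = J t r (x r (y r a))
    rw [(hy t ht).2 r hr hrt, (hx t ht).2 r hr hrt]
  inv_mem' := by
    rintro x hx t ht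
    refine ⟨(B t).inv_mem (hx t ht).1, fun r hr hrt a => ?_⟩
    show (x t)⁻¹ (J t r a) = J t r ((x r)⁻¹ a)
    rw [Equiv.Perm.inv_eq_iff_eq, (hx t ht).2 r hr hrt, app_inv]

/-- The subgroup attached to an element of the lattice. -/
def PP3 (hB : ∀ s, B s ≤ isoSub (S s)) (hlo0 : ∀ l, lo (f l) ≤ l) (l : L) :
    Subgroup (∀ t, Equiv.Perm (S t).X) where
  carrier := {x | x ∈ QQ3 S J B (f l) ∧ (S (f l)).d (x (f l) (ω (f l))) (ω (f l)) ≤ l}
  one_mem' := ⟨(QQ3 S J B (f l)).one_mem, by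
    show (S (f l)).d (ω (f l)) (ω (f l)) ≤ l
    rw [((S (f l)).self _ _).2 rfl]
    exact hlo0 l⟩
  mul_mem' := by
    rintro x y ⟨hx1, hx⟩ ⟨hy1, hy⟩
    refine ⟨(QQ3 S J B (f l)).mul_mem hx1 hy1, ?_⟩
    show (S (f l)).d (x (f l) (y (f l) (ω (f l)))) (ω (f l)) ≤ l
    refine ((S (f l)).tri _ (x (f l) (ω (f l))) _).trans (sup_le ?_ hx)
    rw [hB _ (hx1 (f l) le_rfl).1]
    exact hy
  inv_mem' := by
    rintro x ⟨hx1, hx⟩
    refine ⟨(QQ3 S J B (f l)).inv_mem hx1, ?_⟩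
    show (S (f l)).d ((x (f l))⁻¹ (ω (f l))) (ω (f l)) ≤ l
    rw [← hB _ (hx1 (f l) le_rfl).1, app_inv, (S (f l)).symm]
    exact hx

end

/-- **Core theorem.** A system of gated spaces represents the lattice. -/
theorem core3 [Finite K] (hf : Function.Surjective f) (S : ∀ t, Sp f lo t)
    (J : ∀ t r, (S r).X → (S t).X) (B : ∀ s, Subgroup (Equiv.Perm (S s).X)) (ω : ∀ s, (S s).X)
    (hlo0 : ∀ l, lo (f l) ≤ l) (hfhi : ∀ k, f (hi k) = k)
    (hhi : ∀ l, l ≤ hi (f l)) (hJ : ∀ t, Good3 S B t J) (hB : ∀ s, B s ≤ isoSub (S s))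
    (hω : ∀ r t, r ≤ t → J t r (ω r) = ω t) (hI : ∀ s, IntOK (S s) (B s) (ω s))
    (hK : Representable K) : Representable L := by
  classical
  have hfin : ∀ t, Finite (S t).X := fun t => (S t).fin
  have hM : Representable (Subgroup (∀ t, Equiv.Perm (S t).X)) := representable_subgroup _
  have hext : ∀ s, ∀ g0 ∈ B s, ∃ x ∈ QQ3 S J B s, x s = g0 := by
    intro s g0 hg0
    obtain ⟨x, hx1, hx2⟩ := exists_ext3 hJ s g0 hg0
    exact ⟨x, hx2, hx1⟩
  refine Representable.master f hf (PP3 S J B ω hB hlo0) ?_ ?_ ?_ hK hM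
  · -- monotone
    intro l l' hll x hx
    have hst : f l ≤ f l' := OrderHomClass.mono f hll
    obtain ⟨hx2, hx3⟩ := hx
    refine ⟨fun t ht => ⟨(hx2 t (hst.trans ht)).1,
      fun r hr hrt => (hx2 t (hst.trans ht)).2 r (hst.trans hr) hrt⟩, ?_⟩
    show (S (f l')).d (x (f l') (ω (f l'))) (ω (f l')) ≤ l'
    rw [← hω _ _ hst, (hx2 _ hst).2 _ le_rfl hst, (hJ _).isom _ hst]
    exact sup_le (hx3.trans hll) (hlo0 l')
  · -- order embedding
    intro a b hab hP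
    have hb' : f (b ⊓ hi (f a)) = f a := by rw [map_inf, hfhi, inf_eq_right.2 hab]
    refine ((hI (f a)).2 a (b ⊓ hi (f a)) rfl hb' ?_).trans inf_le_left
    intro g hg hga
    obtain ⟨x, hx1, hx2⟩ := hext (f a) g hg
    have hx : x ∈ PP3 S J B ω hB hlo0 a := ⟨hx1, by rw [hx2]; exact hga⟩
    obtain ⟨_, hx4⟩ := hP hx
    rw [← hω _ _ hab, (hx1 _ hab).2 _ le_rfl hab, (hJ _).isom _ hab, hx2] at hx4
    refine le_inf (le_sup_left.trans hx4) ?_
    have := hhi ((S (f a)).d (g (ω (f a))) (ω (f a)))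
    rwa [(S (f a)).fd] at this
  · -- intervals
    intro a b m hab hm1 hm2
    let W : Subgroup (Equiv.Perm (S (f a)).X) :=
      m.map (Pi.evalMonoidHom (fun t => Equiv.Perm (S t).X) (f a))
    have hQ : ∀ x ∈ m, x ∈ QQ3 S J B (f a) := by
      intro x hx
      have := (hm2 hx).1
      rwa [← hab] at this
    have hW : ∀ g, g ∈ W ↔ ∃ x ∈ m, x (f a) = g := fun g => Subgroup.mem_map
    obtain ⟨c, hc, hcW⟩ := (hI (f a)).1 W (by
      intro g hg
      obtain ⟨x, hx, rfl⟩ := (hW g).1 hg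
      exact (hQ x hx (f a) le_rfl).1) (by
      intro g hg hgω
      obtain ⟨x, hx1, hx2⟩ := hext (f a) g hg
      refine (hW g).2 ⟨x, hm1 ⟨hx1, ?_⟩, hx2⟩
      rw [hx2, hgω, ((S _).self _ _).2 rfl]
      exact hlo0 a)
    refine ⟨c, hc, ?_⟩
    ext x
    have hcm : x ∈ PP3 S J B ω hB hlo0 c ↔ x ∈ QQ3 S J B (f a) ∧
        (S (f a)).d (x (f a) (ω (f a))) (ω (f a)) ≤ c := by
      rw [← hc]; exact Iff.rfl
    rw [hcm]
    constructor
    · rintro ⟨h1, h2⟩
      obtain ⟨y, hy, hyx⟩ := (hW _).1 ((hcW _ (h1 (f a) le_rfl).1).2 h2)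
      have h3 : y⁻¹ * x ∈ m := by
        refine hm1 ⟨(QQ3 S J B (f a)).mul_mem ((QQ3 S J B (f a)).inv_mem (hQ y hy)) h1, ?_⟩
        show (S (f a)).d ((y (f a))⁻¹ (x (f a) (ω (f a)))) (ω (f a)) ≤ a
        rw [hyx]
        have : (x (f a))⁻¹ (x (f a) (ω (f a))) = ω (f a) := (x (f a)).symm_apply_apply _
        rw [this, ((S _).self _ _).2 rfl]
        exact hlo0 a
      have := m.mul_mem hy h3
      rwa [mul_inv_cancel_left] at this
    · intro hx
      exact ⟨hQ x hx, (hcW _ (hQ x hx (f a) le_rfl).1).1 ((hW _).2 ⟨x, hx, rfl⟩)⟩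

/-- **Extensions with good fibres.** -/
theorem ext_good [Finite L] (hf : Function.Surjective f) (b0 : K) (hb0 : ∀ k, b0 ≤ k)
    (hflo : ∀ k, f (lo k) = k) (hfhi : ∀ k, f (hi k) = k)
    (hlo : ∀ l, lo (f l) ≤ l) (hhi : ∀ l, l ≤ hi (f l))
    (hbot : ∃ (G : Type) (_ : Group G) (_ : Finite G) (H : Subgroup G),
      Nonempty ({l : L // f l = b0} ≃o {W : Subgroup G // H ≤ W}))
    (hgood : ∀ t, t ≠ b0 → GoodFibre f lo t)
    (hK : Representable K) : Representable L := by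
  classical
  have hKfin : Finite K := Finite.of_surjective f hf
  have hlo' : ∀ k l, k ≤ f l → lo k ≤ l := by
    intro k l h
    have h1 : f (lo k ⊓ l) = k := by rw [map_inf, hflo, inf_eq_left.2 h]
    have h3 := hlo (lo k ⊓ l)
    rw [h1] at h3
    exact h3.trans inf_le_right
  obtain ⟨G, hG, hGf, H, ⟨θ⟩⟩ := hbot
  obtain ⟨S0, B0, ω0, hB0, hI0, hG0⟩ := exists_bottom (f := f) hflo hfhi hlo hhi b0 G H θ
  obtain ⟨F, hF⟩ := exists_rec (K := K) (C := fun t => Σ S : Sp f lo t, Subgroup (Equiv.Perm S.X))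
    (fun t prev St => (∀ h : t = b0, St = h ▸ (⟨S0, B0⟩ : Σ S : Sp f lo b0,
        Subgroup (Equiv.Perm S.X))) ∧
      (t ≠ b0 → St.2 ≤ isoSub St.1 ∧ ∀ ω, IntOK St.1 St.2 ω) ∧
      LevOK St.1 St.2 (Nat.card (Σ r : {r : K // r < t}, (prev r.1 r.2).1.X))) (by
    intro t prev
    by_cases ht : t = b0
    · subst ht
      refine ⟨⟨S0, B0⟩, fun _ => rfl, fun h => absurd rfl h, ?_⟩
      have hE : IsEmpty (Σ r : {r : K // r < t}, (prev r.1 r.2).1.X) :=
        ⟨fun x => absurd (hb0 x.1.1) (not_le_of_gt x.1.2)⟩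
      intro A _ hA δ _ _ _ _
      have hA1 : Nat.card (Σ r : {r : K // r < t}, (prev r.1 r.2).1.X) = 0 := Nat.card_of_isEmpty
      have hA0 : Nat.card A = 0 := by omega
      have hEA : IsEmpty A := by
        rcases Nat.card_eq_zero.1 hA0 with h | h
        · exact h
        · exact absurd ‹Finite A› (not_finite_iff_infinite.2 h)
      exact ⟨fun a => (hEA.false a).elim, fun a => (hEA.false a).elim,
        fun _ a => (hEA.false a).elim, fun A' σ _ _ => ⟨1, B0.one_mem, fun a => (hEA.false a).elim⟩⟩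
    · obtain ⟨St, Bt, h1, h2, h3⟩ := hgood t ht
        (Nat.card (Σ r : {r : K // r < t}, (prev r.1 r.2).1.X))
      exact ⟨⟨St, Bt⟩, fun h => absurd h ht, fun _ => ⟨h1, h2⟩, h3⟩)
  let S : ∀ t, Sp f lo t := fun t => (F t).1
  let B : ∀ t, Subgroup (Equiv.Perm (S t).X) := fun t => (F t).2
  have hF0 : F b0 = ⟨S0, B0⟩ := (hF b0).1 rfl
  have hBI : ∀ t, B t ≤ isoSub (S t) ∧ (t ≠ b0 → ∀ ω, IntOK (S t) (B t) ω) := by
    intro t
    by_cases ht : t = b0
    · subst ht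
      refine ⟨?_, fun h => absurd rfl h⟩
      show (F t).2 ≤ isoSub (F t).1
      rw [hF0]
      exact hB0
    · exact ⟨((hF t).2.1 ht).1, fun _ => ((hF t).2.1 ht).2⟩
  have hbase : ∃ ω : (S b0).X, IntOK (S b0) (B b0) ω := by
    show ∃ ω : (F b0).1.X, IntOK (F b0).1 (F b0).2 ω
    rw [hF0]
    exact ⟨ω0, hI0, hG0⟩
  obtain ⟨ω1, hω1⟩ := hbase
  have hne : ∀ t, Nonempty (∀ r, (S r).X → (S t).X) := fun t => by
    have := (S t).ne
    exact ⟨fun _ _ => Classical.arbitrary _⟩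
  obtain ⟨J, hJ⟩ := exists_family (C := fun t => ∀ r, (S r).X → (S t).X)
    (fun t J => Good3 S B t J) (fun t J J' h hg => hg.local h)
    (fun t J hJ => exists_step3 (fun s g hg => (hBI s).1 hg) hlo' hflo hfhi hhi hJ (hF t).2.2)
  have hωω : J b0 b0 ω1 = ω1 := (hJ b0).refl ω1
  refine core3 (hi := hi) hf S J B (fun t => J t b0 ω1) hlo hfhi hhi hJ (fun s => (hBI s).1)
    (fun r t hrt => (hJ t).comp _ _ (hb0 r) hrt ω1) ?_ hK
  intro s
  by_cases hs : s = b0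
  · subst hs
    show IntOK (S s) (B s) (J s s ω1)
    rw [hωω]
    exact hω1
  · exact (hBI s).2 hs _

end Vale.Agent.P183.H330G
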