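import Vale.Agent.P183.H330G.Geo

/-!
The interval with four elements.
-/

namespace Vale.Agent.P183.H330G

open Vale.Agent.P183 Vale.Agent.P183.H330 Matrix

variable {L : Type} [Lattice L] {a b m1 m2 : L}

theorem li_coord {ι I : Type} [Fintype I] [DecidableEq I] (v : I → ι → ZMod 2) (e : I → ι)
    (h : ∀ i j, v i (e j) = if i = j then 1 else 0) : LinearIndependent (ZMod 2) v := by
  rw [Fintype.linearIndependent_iff]
  intro g hg j
  have h1 := congrFun hg (e j)
  rw [Finset.sum_apply] at h1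
  simp only [Pi.smul_apply, h, smul_eq_mul, mul_ite, mul_one, mul_zero, Finset.sum_ite_eq',
    Finset.mem_univ, if_true, Pi.zero_apply] at h1
  exact h1

/-- The index set of the coordinates. -/
abbrev Ix (n : ℕ) : Type := Fin n ⊕ Fin n ⊕ Fin 5

open Classical in
/-- The distance of two flags. -/
noncomputable def fd (a b m1 m2 : L) {ι : Type} [Fintype ι] (p q : Fl ι) : L :=
  if p.1.1 = q.1.1 then (if p.1.2 = q.1.2 then a else m1)
  else (if p.1.2 = q.1.2 then m2 else b)

section

variable (ha1 : a < m1) (ha2 : a < m2) (h1b : m1 < b) (h2b : m2 < b) (h12 : ¬ m1 ≤ m2)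
  (h21 : ¬ m2 ≤ m1) (hall : ∀ x, a ≤ x → x ≤ b → x = a ∨ x = m1 ∨ x = m2 ∨ x = b)

include ha1 ha2 h1b h2b h12 h21 hall

theorem sq_le {x y : L} (hx1 : a ≤ x) (hx2 : x ≤ b) (hy1 : a ≤ y) (hy2 : y ≤ b)
    (h1 : y ≤ m1 → x ≤ m1) (h2 : y ≤ m2 → x ≤ m2) : x ≤ y := by
  rcases hall y hy1 hy2 with rfl | rfl | rfl | rfl
  · have e1 := h1 ha1.le
    have e2 := h2 ha2.le
    rcases hall x hx1 hx2 with rfl | rfl | rfl | rfl
    · exact le_rfl
    · exact absurd e2 h12
    · exact absurd e1 h21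
    · exact absurd e1 (not_le_of_gt h1b)
  · exact h1 le_rfl
  · exact h2 le_rfl
  · exact hx2

variable {ι : Type} [Fintype ι]

omit ha2 h2b h12 hall in
theorem fd_le1 (p q : Fl ι) : fd a b m1 m2 p q ≤ m1 ↔ p.1.1 = q.1.1 := by
  classical
  unfold fd
  by_cases h : p.1.1 = q.1.1
  · rw [if_pos h]
    split_ifs
    · exact ⟨fun _ => h, fun _ => ha1.le⟩
    · exact ⟨fun _ => h, fun _ => le_rfl⟩
  · rw [if_neg h]
    split_ifs
    · exact ⟨fun h' => absurd h' h21, fun h' => absurd h' h⟩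
    · exact ⟨fun h' => absurd h' (not_le_of_gt h1b), fun h' => absurd h' h⟩

omit ha1 h1b h21 hall in
theorem fd_le2 (p q : Fl ι) : fd a b m1 m2 p q ≤ m2 ↔ p.1.2 = q.1.2 := by
  classical
  unfold fd
  by_cases h : p.1.2 = q.1.2
  · rw [if_pos h, if_pos h]
    split_ifs
    · exact ⟨fun _ => h, fun _ => ha2.le⟩
    · exact ⟨fun _ => h, fun _ => le_rfl⟩
  · rw [if_neg h, if_neg h]
    split_ifs
    · exact ⟨fun h' => absurd h' h12, fun h' => absurd h' h⟩
    · exact ⟨fun h' => absurd h' (not_le_of_gt h2b), fun h' => absurd h' h⟩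

end

/-- **The four-element interval.** -/
theorem goodI_sq (ha1 : a < m1) (ha2 : a < m2) (h1b : m1 < b) (h2b : m2 < b) (h12 : ¬ m1 ≤ m2)
    (h21 : ¬ m2 ≤ m1) (hall : ∀ x, a ≤ x → x ≤ b → x = a ∨ x = m1 ∨ x = m2 ∨ x = b) :
    GoodI a b := by
  classical
  intro n
  have hab : a ≤ b := ha1.le.trans h1b.le
  let ι : Type := Ix n
  have hι : 5 ≤ Fintype.card ι := by
    show 5 ≤ Fintype.card (Fin n ⊕ Fin n ⊕ Fin 5)
    rw [Fintype.card_sum, Fintype.card_sum, Fintype.card_fin, Fintype.card_fin]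
    omega
  have hge : ∀ p q : Fl ι, a ≤ fd a b m1 m2 p q := by
    intro p q
    unfold fd
    split_ifs
    · exact le_rfl
    · exact ha1.le
    · exact ha2.le
    · exact hab
  have hle : ∀ p q : Fl ι, fd a b m1 m2 p q ≤ b := by
    intro p q
    unfold fd
    split_ifs
    · exact hab
    · exact h1b.le
    · exact h2b.le
    · exact le_rfl
  have hd1 : ∀ p q : Fl ι, fd a b m1 m2 p q ≤ m1 ↔ p.1.1 = q.1.1 := fd_le1 ha1 h1b h21
  have hd2 : ∀ p q : Fl ι, fd a b m1 m2 p q ≤ m2 ↔ p.1.2 = q.1.2 := fd_le2 ha2 h2b h12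
  have hle' : ∀ {x y : L}, a ≤ x → x ≤ b → a ≤ y → y ≤ b → (y ≤ m1 → x ≤ m1) →
      (y ≤ m2 → x ≤ m2) → x ≤ y := fun e1 e2 e3 e4 e5 e6 =>
    sq_le ha1 ha2 h1b h2b h12 h21 hall e1 e2 e3 e4 e5 e6
  have hself : ∀ p q : Fl ι, fd a b m1 m2 p q = a ↔ p = q := by
    intro p q
    constructor
    · intro h
      exact Subtype.ext (Prod.ext ((hd1 p q).1 (h.le.trans ha1.le))
        ((hd2 p q).1 (h.le.trans ha2.le)))
    · rintro rfl
      unfold fd
      rw [if_pos rfl, if_pos rfl]
  have hne : Nonempty (Fl ι) := by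
    let e : ι := Sum.inr (Sum.inr (0 : Fin 5))
    let e' : ι := Sum.inr (Sum.inr (1 : Fin 5))
    refine ⟨⟨(Pi.single e 1, Pi.single e' 1), ?_, ?_, ?_⟩⟩
    · intro h
      have h3 := congrFun h e
      change (Pi.single e (1 : ZMod 2) : ι → ZMod 2) e = 0 at h3
      rw [Pi.single_eq_same] at h3
      exact one_ne_zero h3
    · intro h
      have h3 := congrFun h e'
      change (Pi.single e' (1 : ZMod 2) : ι → ZMod 2) e' = 0 at h3
      rw [Pi.single_eq_same] at h3
      exact one_ne_zero h3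
    · change (Pi.single e (1 : ZMod 2) : ι → ZMod 2) ⬝ᵥ Pi.single e' (1 : ZMod 2) = 0
      rw [single_one_dotProduct]
      exact Pi.single_eq_of_ne (by
        intro h
        have h1 : (0 : Fin 5) = 1 := Sum.inr.inj (Sum.inr.inj h)
        exact absurd h1 (by decide)) _
  let S : Si a b :=
    { X := Fl ι
      fin := inferInstance
      ne := hne
      d := fd a b m1 m2
      ge := hge
      le := hle
      self := hself
      symm := fun p q => by
        apply le_antisymm
        · refine hle' (hge _ _) (hle _ _) (hge _ _) (hle _ _) ?_ ?_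
          · rw [hd1, hd1]; exact Eq.symm
          · rw [hd2, hd2]; exact Eq.symm
        · refine hle' (hge _ _) (hle _ _) (hge _ _) (hle _ _) ?_ ?_
          · rw [hd1, hd1]; exact Eq.symm
          · rw [hd2, hd2]; exact Eq.symm
      tri := fun p q r => by
        refine hle' (hge _ _) (hle _ _) ((hge p q).trans le_sup_left)
          (sup_le (hle _ _) (hle _ _)) ?_ ?_
        · intro h
          rw [hd1]
          exact ((hd1 _ _).1 (le_sup_left.trans h)).trans ((hd1 _ _).1 (le_sup_right.trans h))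
        · intro h
          rw [hd2]
          exact ((hd2 _ _).1 (le_sup_left.trans h)).trans ((hd2 _ _).1 (le_sup_right.trans h)) }
  have hSd : ∀ p q, S.d p q = fd a b m1 m2 p q := fun _ _ => rfl
  have hiso : ∀ g ∈ flB ι, ∀ x y : Fl ι, fd a b m1 m2 (g x) (g y) = fd a b m1 m2 x y := by
    rintro π ⟨g, g', _, h⟩ x y
    apply le_antisymm
    · refine hle' (hge _ _) (hle _ _) (hge _ _) (hle _ _) ?_ ?_
      · rw [hd1, hd1, h, h]; exact fun h => congrArg g h
      · rw [hd2, hd2, h, h]; exact fun h => congrArg g' h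
    · refine hle' (hge _ _) (hle _ _) (hge _ _) (hle _ _) ?_ ?_
      · rw [hd1, hd1, h, h]; exact fun h => g.injective h
      · rw [hd2, hd2, h, h]; exact fun h => g'.injective h
  refine ⟨S, flB ι, hiso, fun ω => ⟨fun W hWB hW => ?_, ?_⟩, ?_⟩
  · -- the interval
    let O : Set (Fl ι) := {x | ∃ π ∈ W, π ω = x}
    have h0 : ω ∈ O := ⟨1, W.one_mem, rfl⟩
    have hmem : ∀ g ∈ flB ι, g ω ∈ O → g ∈ W := by
      rintro g hg ⟨w, hw, hwg⟩
      have h3 : w⁻¹ * g ∈ W := hW _ ((flB ι).mul_mem ((flB ι).inv_mem (hWB hw)) hg) (by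
        show w⁻¹ (g ω) = ω
        rw [← hwg]
        exact w.symm_apply_apply ω)
      have := W.mul_mem hw h3
      rwa [mul_inv_cancel_left] at this
    have r1 : ∀ x y z, x ∈ O → y ∈ O → RelB ω y x z → z ∈ O := by
      rintro x y z hx ⟨w0, hw0, rfl⟩ ⟨π, hπ, h3, rfl⟩
      have h4 : π ∈ W := hmem π hπ (by rw [h3]; exact hx)
      exact ⟨π * w0, W.mul_mem h4 hw0, rfl⟩
    have r2 : ∀ x y z, x ∈ O → y ∈ O → RelB ω y z x → z ∈ O := by
      rintro x y z ⟨w1, hw1, hw1x⟩ ⟨w0, hw0, rfl⟩ ⟨π, hπ, rfl, h4⟩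
      have h5 : π * w0 ∈ W := hmem _ ((flB ι).mul_mem hπ (hWB hw0)) ⟨w1, hw1, by
        show w1 ω = π (w0 ω)
        rw [hw1x, h4]⟩
      have h6 : π ∈ W := by
        have := W.mul_mem h5 (W.inv_mem hw0)
        rwa [mul_inv_cancel_right] at this
      exact ⟨π, h6, rfl⟩
    by_cases hL : ∃ y ∈ O, ω.1.1 ≠ y.1.1
    · obtain ⟨y, hy, hyne⟩ := hL
      have HL := left_moves hι ω O h0 r1 r2 y hy hyne
      by_cases hR : ∃ z ∈ O, ω.1.2 ≠ z.1.2
      · obtain ⟨z, hz, hzne⟩ := hR
        have HR := right_moves hι ω O h0 r1 r2 z hz hzne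
        exact ⟨b, hab, le_rfl, fun g hg => ⟨fun _ => hle _ _,
          fun _ => hmem g hg (both_moves hι ω O h0 HL HR _)⟩⟩
      · push Not at hR
        refine ⟨m2, ha2.le, h2b.le, fun g hg => ?_⟩
        rw [hSd, hd2]
        exact ⟨fun h => (hR _ ⟨g, h, rfl⟩).symm, fun h => hmem g hg (HL ω h0 _ h.symm)⟩
    · push Not at hL
      by_cases hR : ∃ z ∈ O, ω.1.2 ≠ z.1.2
      · obtain ⟨z, hz, hzne⟩ := hR
        have HR := right_moves hι ω O h0 r1 r2 z hz hzne
        refine ⟨m1, ha1.le, h1b.le, fun g hg => ?_⟩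
        rw [hSd, hd1]
        exact ⟨fun h => (hL _ ⟨g, h, rfl⟩).symm, fun h => hmem g hg (HR ω h0 _ h.symm)⟩
      · push Not at hR
        refine ⟨a, le_rfl, hab, fun g hg => ?_⟩
        constructor
        · intro h
          rw [hSd]
          exact ((hself _ _).2 (Subtype.ext (Prod.ext (hL _ ⟨g, h, rfl⟩).symm
            (hR _ ⟨g, h, rfl⟩).symm))).le
        · intro h
          have h3 : g ω = ω := (hself _ _).1 (le_antisymm h (hge _ _))
          exact hW g hg h3
  · -- generation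
    intro x y hx1 hx2 hy1 hy2 h
    have key : ∀ z : Fl ι, fd a b m1 m2 z ω ≤ x → fd a b m1 m2 z ω ≤ y := by
      intro z hz
      obtain ⟨π, hπ, rfl⟩ := rel_one ω z
      exact h π hπ hz
    rcases hall x hx1 hx2 with rfl | rfl | rfl | rfl
    · exact hy1
    · obtain ⟨z, hz1, hz2⟩ := exists_right hι ω
      have e : fd a b x m2 z ω = x := by
        unfold fd; rw [if_pos hz1, if_neg hz2]
      have := key z e.le
      rwa [e] at this
    · obtain ⟨z, hz1, hz2⟩ := exists_left hι ω
      have e : fd a b m1 x z ω = x := by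
        unfold fd; rw [if_neg hz1, if_pos hz2]
      have := key z e.le
      rwa [e] at this
    · obtain ⟨z, hz1, hz2⟩ := exists_both hι ω
      have e : fd a x m1 m2 z ω = x := by
        unfold fd; rw [if_neg hz1, if_neg hz2]
      have := key z e.le
      rwa [e] at this
  · -- universality
    intro A _ hA δ hδ1 hδ2 hδs hδsy hδt
    have hcl : ∀ m : L, a ≤ m → ∃ cl : A → Fin n, ∀ x y, cl x = cl y ↔ δ x y ≤ m := by
      intro m hm
      let r : Setoid A :=
        { r := fun x y => δ x y ≤ m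
          iseqv := ⟨fun x => by rw [hδs]; exact hm, fun {x y} h => by rw [hδsy]; exact h,
            fun {x y z} h h' => (hδt x y z).trans (sup_le h h')⟩ }
      have hcard : Nat.card (Quotient r) ≤ Nat.card (Fin n) := by
        have h3 := Nat.card_le_card_of_surjective (Quotient.mk r) Quotient.mk_surjective
        rw [Nat.card_fin]
        omega
      obtain ⟨e⟩ : Nonempty (Quotient r ↪ Fin n) := by
        have := Fintype.ofFinite (Quotient r)
        rw [Nat.card_eq_fintype_card, Nat.card_eq_fintype_card] at hcard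
        exact Function.Embedding.nonempty_of_card_le hcard
      refine ⟨fun x => e (Quotient.mk r x), fun x y => ?_⟩
      rw [e.injective.eq_iff]
      exact Quotient.eq
    obtain ⟨cl1, hcl1⟩ := hcl m1 ha1.le
    obtain ⟨cl2, hcl2⟩ := hcl m2 ha2.le
    let V : Fin n → ι → ZMod 2 := fun i => Pi.single (Sum.inl i) 1
    let U : Fin n → ι → ZMod 2 := fun j => fun k => match k with
      | Sum.inl i => if ∃ c, cl1 c = i ∧ cl2 c = j then 0 else 1
      | Sum.inr (Sum.inl k) => if k = j then 1 else 0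
      | Sum.inr (Sum.inr _) => 0
    have hVU : ∀ i j, V i ⬝ᵥ U j = if ∃ c, cl1 c = i ∧ cl2 c = j then 0 else 1 := by
      intro i j
      show (Pi.single (Sum.inl i : ι) (1 : ZMod 2) : ι → ZMod 2) ⬝ᵥ U j = _
      rw [single_one_dotProduct]
    have hVV : ∀ i j, V i (Sum.inl j) = if i = j then 1 else 0 := by
      intro i j
      show (Pi.single (Sum.inl i : ι) (1 : ZMod 2) : ι → ZMod 2) (Sum.inl j) = _
      rw [Pi.single_apply]
      by_cases h : i = j
      · rw [if_pos h, if_pos (by rw [h])]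
      · rw [if_neg h, if_neg (fun h' => h (Sum.inl.inj h').symm)]
    have hUU : ∀ i j, U i (Sum.inr (Sum.inl j)) = if i = j then 1 else 0 := by
      intro i j
      show (if j = i then (1 : ZMod 2) else 0) = _
      by_cases h : i = j
      · rw [if_pos h, if_pos h.symm]
      · rw [if_neg h, if_neg (fun h' => h h'.symm)]
    have hV0 : ∀ i, V i ≠ 0 := by
      intro i h
      have := congrFun h (Sum.inl i)
      rw [hVV, if_pos rfl] at this
      exact one_ne_zero this
    have hU0 : ∀ i, U i ≠ 0 := by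
      intro i h
      have := congrFun h (Sum.inr (Sum.inl i))
      rw [hUU, if_pos rfl] at this
      exact one_ne_zero this
    have hVinj : ∀ i j, V i = V j → i = j := by
      intro i j h
      by_contra hij
      have := congrFun h (Sum.inl i)
      rw [hVV, hVV, if_pos rfl, if_neg (fun h' => hij h'.symm)] at this
      exact one_ne_zero this
    have hUinj : ∀ i j, U i = U j → i = j := by
      intro i j h
      by_contra hij
      have := congrFun h (Sum.inr (Sum.inl i))
      rw [hUU, hUU, if_pos rfl, if_neg (fun h' => hij h'.symm)] at this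
      exact one_ne_zero this
    let i : A → Fl ι := fun x => ⟨(V (cl1 x), U (cl2 x)), hV0 _, hU0 _, by
      show V (cl1 x) ⬝ᵥ U (cl2 x) = 0
      rw [hVU, if_pos ⟨x, rfl, rfl⟩]⟩
    have hi1 : ∀ x y, (i x).1.1 = (i y).1.1 ↔ δ x y ≤ m1 := by
      intro x y
      rw [← hcl1]
      exact ⟨fun h => hVinj _ _ h, fun h => congrArg V h⟩
    have hi2 : ∀ x y, (i x).1.2 = (i y).1.2 ↔ δ x y ≤ m2 := by
      intro x y
      rw [← hcl2]
      exact ⟨fun h => hUinj _ _ h, fun h => congrArg U h⟩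
    have hdist : ∀ x y, fd a b m1 m2 (i x) (i y) = δ x y := by
      intro x y
      apply le_antisymm
      · refine hle' (hge _ _) (hle _ _) (hδ1 _ _) (hδ2 _ _) ?_ ?_
        · rw [hd1, hi1]; exact id
        · rw [hd2, hi2]; exact id
      · refine hle' (hδ1 _ _) (hδ2 _ _) (hge _ _) (hle _ _) ?_ ?_
        · rw [hd1, hi1]; exact id
        · rw [hd2, hi2]; exact id
    have hgate : ∀ (x : Fl ι) (y z : A), x.1.1 = (i y).1.1 → x.1.2 = (i z).1.2 →
        ∃ c, x = i c := by
      intro x y z hy hz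
      have h3 := x.2.2.2
      rw [hy, hz] at h3
      change V (cl1 y) ⬝ᵥ U (cl2 z) = 0 at h3
      rw [hVU] at h3
      split_ifs at h3 with h4
      · obtain ⟨c, hc1, hc2⟩ := h4
        refine ⟨c, Subtype.ext (Prod.ext ?_ ?_)⟩
        · rw [hy]; show V (cl1 y) = V (cl1 c); rw [hc1]
        · rw [hz]; show U (cl2 z) = U (cl2 c); rw [hc2]
      · exact absurd h3 one_ne_zero
    refine ⟨i, hdist, ?_, ?_⟩
    · intro x y z l l' hl1 hl2 hl1' hl2' h h'
      have hcase : l ≤ l' ∨ l' ≤ l ∨ (l = m1 ∧ l' = m2) ∨ (l = m2 ∧ l' = m1) := by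
        rcases hall l hl1 hl2 with rfl | rfl | rfl | rfl
        · exact Or.inl hl1'
        · rcases hall l' hl1' hl2' with rfl | rfl | rfl | rfl
          · exact Or.inr (Or.inl hl1)
          · exact Or.inl le_rfl
          · exact Or.inr (Or.inr (Or.inl ⟨rfl, rfl⟩))
          · exact Or.inl hl2
        · rcases hall l' hl1' hl2' with rfl | rfl | rfl | rfl
          · exact Or.inr (Or.inl hl1)
          · exact Or.inr (Or.inr (Or.inr ⟨rfl, rfl⟩))
          · exact Or.inl le_rfl
          · exact Or.inl hl2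
        · exact Or.inr (Or.inl hl2')
      rcases hcase with h3 | h3 | ⟨h3, h4⟩ | ⟨h3, h4⟩
      · exact ⟨y, le_inf h (h.trans h3)⟩
      · exact ⟨z, le_inf (h'.trans h3) h'⟩
      · rw [h3] at h
        rw [h4] at h'
        obtain ⟨c, hc⟩ := hgate x y z ((hd1 _ _).1 h) ((hd2 _ _).1 h')
        refine ⟨c, ?_⟩
        have e : S.d x (i c) = a := (hself _ _).2 hc
        rw [e]
        exact le_inf hl1 hl1'
      · rw [h3] at h
        rw [h4] at h'
        obtain ⟨c, hc⟩ := hgate x z y ((hd1 _ _).1 h') ((hd2 _ _).1 h)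
        refine ⟨c, ?_⟩
        have e : S.d x (i c) = a := (hself _ _).2 hc
        rw [e]
        exact le_inf hl1 hl1'
    · intro A' σ hσ hinc
      let I : Type := {k : Fin n // ∃ x ∈ A', cl1 x = k}
      let J : Type := {k : Fin n // ∃ x ∈ A', cl2 x = k}
      have hp : ∀ k : I, ∃ x ∈ A', cl1 x = k.1 := fun k => k.2
      have hq : ∀ k : J, ∃ x ∈ A', cl2 x = k.1 := fun k => k.2
      choose p hp1 hp2 using hp
      choose q hq1 hq2 using hq
      have hs1 : ∀ x ∈ A', ∀ y ∈ A', (cl1 (σ x) = cl1 (σ y) ↔ cl1 x = cl1 y) := by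
        intro x hx y hy
        rw [hcl1, hcl1, hσ x hx y hy]
      have hs2 : ∀ x ∈ A', ∀ y ∈ A', (cl2 (σ x) = cl2 (σ y) ↔ cl2 x = cl2 y) := by
        intro x hx y hy
        rw [hcl2, hcl2, hσ x hx y hy]
      have hI1 : ∀ k l : I, cl1 (σ (p k)) = cl1 (σ (p l)) ↔ k = l := by
        intro k l
        rw [hs1 _ (hp1 k) _ (hp1 l), hp2, hp2]
        exact ⟨fun h => Subtype.ext h, fun h => congrArg _ h⟩
      have hJ1 : ∀ k l : J, cl2 (σ (q k)) = cl2 (σ (q l)) ↔ k = l := by
        intro k l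
        rw [hs2 _ (hq1 k) _ (hq1 l), hq2, hq2]
        exact ⟨fun h => Subtype.ext h, fun h => congrArg _ h⟩
      obtain ⟨π, hπ, hπP⟩ := fl_witt (ι := ι) (fun k : I => V k.1)
        (fun k : I => V (cl1 (σ (p k)))) (fun k : J => U k.1) (fun k : J => U (cl2 (σ (q k))))
        (li_coord _ (fun k : I => Sum.inl k.1) (by
          intro k l
          rw [hVV]
          by_cases h : k = l
          · rw [if_pos h, if_pos (congrArg _ h)]
          · rw [if_neg h, if_neg (fun h' => h (Subtype.ext h'))]))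
        (li_coord _ (fun k : I => Sum.inl (cl1 (σ (p k)))) (by
          intro k l
          rw [hVV]
          by_cases h : k = l
          · rw [if_pos h, if_pos (by rw [h])]
          · rw [if_neg h, if_neg (fun h' => h ((hI1 k l).1 h'))]))
        (li_coord _ (fun k : J => Sum.inr (Sum.inl k.1)) (by
          intro k l
          rw [hUU]
          by_cases h : k = l
          · rw [if_pos h, if_pos (congrArg _ h)]
          · rw [if_neg h, if_neg (fun h' => h (Subtype.ext h'))]))
        (li_coord _ (fun k : J => Sum.inr (Sum.inl (cl2 (σ (q k))))) (by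
          intro k l
          rw [hUU]
          by_cases h : k = l
          · rw [if_pos h, if_pos (by rw [h])]
          · rw [if_neg h, if_neg (fun h' => h ((hJ1 k l).1 h'))]))
        (by
          intro k l
          rw [hVU, hVU]
          have key : (∃ c, cl1 c = k.1 ∧ cl2 c = l.1) ↔
              ∃ c, cl1 c = cl1 (σ (p k)) ∧ cl2 c = cl2 (σ (q l)) := by
            rw [← hp2 k, ← hq2 l]
            simp only [hcl1, hcl2]
            exact hinc _ (hp1 k) _ (hq1 l) m1 m2 ha1.le h1b.le ha2.le h2b.le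
          by_cases h : ∃ c, cl1 c = k.1 ∧ cl2 c = l.1
          · rw [if_pos h, if_pos (key.1 h)]
          · rw [if_neg h, if_neg (fun h' => h (key.2 h'))])
      refine ⟨π, hπ, fun x hx => hπP (i x) (i (σ x)) ⟨⟨cl1 x, x, hx, rfl⟩, rfl, ?_⟩
        ⟨⟨cl2 x, x, hx, rfl⟩, rfl, ?_⟩⟩
      · show V (cl1 (σ x)) = V (cl1 (σ (p _)))
        congr 1
        exact (hs1 x hx _ (hp1 _)).2 (hp2 ⟨cl1 x, x, hx, rfl⟩).symm
      · show U (cl2 (σ x)) = U (cl2 (σ (q _)))
        congr 1
        exact (hs2 x hx _ (hq1 _)).2 (hq2 ⟨cl2 x, x, hx, rfl⟩).symm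

end Vale.Agent.P183.H330G
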