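import Vale.Agent.P183.H330G.Stack
import Vale.Agent.P183.H330G.Sq
import Vale.Agent.P183.H330T.Clauses

/-!
Extensions of an arbitrary representable lattice: no condition on the lattice `K` and on the
position of the fibres.
-/

namespace Vale.Agent.P183.H330G

open Vale.Agent.P183 Vale.Agent.P183.H330

variable {L K : Type} [Lattice L] [Lattice K]

/-- Intervals in which every element is incomparable with at most one element. -/
theorem goodI_of [Finite L] (a : L) (b : L) : a ≤ b →
    (∀ x y z, a ≤ x → x ≤ b → a ≤ y → y ≤ b → a ≤ z → z ≤ b → ¬ x ≤ y → ¬ y ≤ x → ¬ x ≤ z →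
      ¬ z ≤ x → y = z) → GoodI a b := by
  induction b using WellFoundedLT.induction with
  | ind b ih =>
    intro hab hI
    rcases eq_or_lt_of_le hab with hEq | hlt
    · rw [← hEq]
      exact goodI_refl a
    obtain ⟨m, ⟨ham, hmb⟩, hmax⟩ :=
      (Set.toFinite {x : L | a ≤ x ∧ x < b}).exists_maximal ⟨a, le_rfl, hlt⟩
    have hmax' : ∀ x, m ≤ x → x ≤ b → x = m ∨ x = b := by
      intro x h1 h2
      rcases eq_or_lt_of_le h2 with h3 | h3
      · exact Or.inr h3
      · exact Or.inl (le_antisymm (hmax ⟨ham.trans h1, h3⟩ h1) h1)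
    by_cases hc : ∀ x, a ≤ x → x ≤ b → x ≤ m ∨ m ≤ x
    · exact goodI_stack ham hmb.le hc (ih m hmb ham (fun x y z h1 h2 h3 h4 h5 h6 =>
        hI x y z h1 (h2.trans hmb.le) h3 (h4.trans hmb.le) h5 (h6.trans hmb.le)))
        (goodI_two hmb (fun x hx1 hx2 => hmax' x hx1 hx2))
    · push Not at hc
      obtain ⟨m', h1, h2, h3, h4⟩ := hc
      have hu1 : m ⊓ m' < m := lt_of_le_of_ne inf_le_left (fun h => h4 (by
        rw [← h]; exact inf_le_right))
      have hu2 : m ⊓ m' < m' := lt_of_le_of_ne inf_le_right (fun h => h3 (by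
        rw [← h]; exact inf_le_left))
      have hm'b : m' < b := lt_of_le_of_ne h2 (fun h => h4 (by rw [h]; exact hmb.le))
      have hau : a ≤ m ⊓ m' := le_inf ham h1
      have key : ∀ x, a ≤ x → x ≤ b → x ≤ m ⊓ m' ∨ x = m ∨ x = m' ∨ x = b := by
        intro x hx1 hx2
        by_cases hxm : x ≤ m
        · by_cases hxm' : x ≤ m'
          · exact Or.inl (le_inf hxm hxm')
          · right; left
            exact (hI m' m x h1 h2 ham hmb.le hx1 hx2 h3 h4 (fun h => h3 (h.trans hxm))
              hxm').symm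
        · by_cases hmx : m ≤ x
          · rcases hmax' x hmx hx2 with h | h
            · right; left; exact h
            · right; right; right; exact h
          · right; right; left
            exact (hI m m' x ham hmb.le h1 h2 hx1 hx2 h4 h3 hmx hxm).symm
      refine goodI_stack hau (hu1.le.trans hmb.le) (fun x hx1 hx2 => ?_)
        (ih _ (hu1.trans hmb) hau (fun x y z h1 h2 h3 h4 h5 h6 =>
          hI x y z h1 (h2.trans (hu1.le.trans hmb.le)) h3 (h4.trans (hu1.le.trans hmb.le)) h5
            (h6.trans (hu1.le.trans hmb.le))))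
        (goodI_sq hu1 hu2 hmb hm'b h4 h3 (fun x hx1 hx2 => ?_))
      · rcases key x hx1 hx2 with h | h | h | h
        · exact Or.inl h
        · exact Or.inr (by rw [h]; exact inf_le_left)
        · exact Or.inr (by rw [h]; exact inf_le_right)
        · exact Or.inr (by rw [h]; exact inf_le_left.trans hmb.le)
      · rcases key x (hau.trans hx1) hx2 with h | h | h | h
        · exact Or.inl (le_antisymm h hx1)
        · exact Or.inr (Or.inl h)
        · exact Or.inr (Or.inr (Or.inl h))
        · exact Or.inr (Or.inr (Or.inr h))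

/-- **Extensions of an arbitrary representable lattice.** Every element outside the least fibre
is incomparable with at most one element of its fibre; the least fibre is an upper interval of
the subgroup lattice of a finite group; `K` is an arbitrary representable lattice. -/
theorem ext_width [Finite L] (f : LatticeHom L K) (hf : Function.Surjective f)
    (hK : Representable K)
    (hbot : ∃ (G : Type) (_ : Group G) (_ : Finite G) (H : Subgroup G),
      Nonempty ({l : L // IsMin (f l)} ≃o {W : Subgroup G // H ≤ W}))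
    (hw : ∀ x y z, f x = f y → f x = f z → ¬ IsMin (f x) →
      ¬ x ≤ y → ¬ y ≤ x → ¬ x ≤ z → ¬ z ≤ x → y = z) :
    Representable L := by
  have hKf : Finite K := Finite.of_surjective f hf
  have hKn : Nonempty K := hK.nonempty
  obtain ⟨b0, hb0⟩ := exists_least (K := K)
  obtain ⟨G, hG, hGf, H, ⟨θ⟩⟩ := hbot
  let e : {l : L // f l = b0} ≃o {l : L // IsMin (f l)} :=
    { toFun := fun l => ⟨l.1, (isMin_iff hb0 _).2 l.2⟩
      invFun := fun l => ⟨l.1, (isMin_iff hb0 _).1 l.2⟩
      left_inv := fun _ => rfl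
      right_inv := fun _ => rfl
      map_rel_iff' := Iff.rfl }
  obtain ⟨lo, hi, hflo, hfhi, hlo, hhi⟩ := exists_lo_hi_fin f hf
  refine ext_good (hi := hi) hf b0 hb0 hflo hfhi hlo hhi ⟨G, hG, hGf, H, ⟨e.trans θ⟩⟩ ?_ hK
  intro t ht
  have hin : ∀ l, lo t ≤ l → l ≤ hi t → f l = t := by
    intro l h1 h2
    apply le_antisymm
    · have := OrderHomClass.mono f h2
      rwa [hfhi] at this
    · have := OrderHomClass.mono f h1
      rwa [hflo] at this
  refine goodFibre_of (hi := hi) hlo hhi hflo hfhi (goodI_of _ _ ?_ ?_)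
  · have := hhi (lo t)
    rwa [hflo] at this
  · intro x y z x1 x2 y1 y2 z1 z2 h1 h2 h3 h4
    have ex := hin x x1 x2
    have ey := hin y y1 y2
    have ez := hin z z1 z2
    exact hw x y z (ex.trans ey.symm) (ex.trans ez.symm) (fun h => ht (by
      rw [← ex]
      exact (isMin_iff hb0 _).1 h)) h1 h2 h3 h4

/-- The condition on a fibre implies that it is distributive. -/
theorem distrib_of_width {k : K} {f : LatticeHom L K}
    (hw : ∀ x y z, f x = k → f y = k → f z = k →
      ¬ x ≤ y → ¬ y ≤ x → ¬ x ≤ z → ¬ z ≤ x → y = z) (x y z : L) (hx : f x = k) (hy : f y = k)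
    (hz : f z = k) : (x ⊓ y) ⊔ z = (x ⊔ z) ⊓ (y ⊔ z) := by
  by_cases h1 : x ≤ y
  · rw [inf_eq_left.2 h1, inf_eq_left.2 (sup_le_sup_right h1 z)]
  by_cases h2 : y ≤ x
  · rw [inf_eq_right.2 h2, inf_eq_right.2 (sup_le_sup_right h2 z)]
  by_cases h3 : x ≤ z
  · by_cases h4 : y ≤ z
    · rw [sup_eq_right.2 (inf_le_left.trans h3), sup_eq_right.2 h3, sup_eq_right.2 h4, inf_idem]
    · by_cases h5 : z ≤ y
      · exact absurd (h3.trans h5) h1
      · have := hw y x z hy hx hz h2 h1 h4 h5
        subst this
        rw [sup_idem, sup_eq_right.2 inf_le_left, inf_eq_left.2 le_sup_right]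
  · by_cases h4 : z ≤ x
    · by_cases h5 : z ≤ y
      · rw [sup_eq_left.2 (le_inf h4 h5), sup_eq_left.2 h4, sup_eq_left.2 h5]
      · by_cases h6 : y ≤ z
        · exact absurd (h6.trans h4) h2
        · have := hw y x z hy hx hz h2 h1 h6 h5
          subst this
          rw [sup_idem, sup_eq_right.2 inf_le_left, inf_eq_left.2 le_sup_right]
    · have := hw x y z hx hy hz h1 h2 h3 h4
      subst this
      rw [sup_idem, sup_eq_right.2 inf_le_right, inf_eq_right.2 le_sup_right]

/-- **All fibres.** Each element is incomparable with at most one element of its fibre. -/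
theorem ext_width' [Finite L] (f : LatticeHom L K) (hf : Function.Surjective f)
    (hK : Representable K)
    (hw : ∀ x y z, f x = f y → f x = f z → ¬ x ≤ y → ¬ y ≤ x → ¬ x ≤ z → ¬ z ≤ x → y = z) :
    Representable L := by
  have hKf : Finite K := Finite.of_surjective f hf
  have hKn : Nonempty K := hK.nonempty
  obtain ⟨b0, hb0⟩ := exists_least (K := K)
  obtain ⟨G, hG, hGf, H, ⟨θ⟩⟩ := fibre_interval f hf b0 (fun x y z hx hy hz =>
    distrib_of_width (f := f) (k := b0) (fun x y z hx hy hz => hw x y z (hx.trans hy.symm)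
      (hx.trans hz.symm)) x y z hx hy hz)
  let e : {l : L // IsMin (f l)} ≃o {l : L // f l = b0} :=
    { toFun := fun l => ⟨l.1, (isMin_iff hb0 _).1 l.2⟩
      invFun := fun l => ⟨l.1, (isMin_iff hb0 _).2 l.2⟩
      left_inv := fun _ => rfl
      right_inv := fun _ => rfl
      map_rel_iff' := Iff.rfl }
  exact ext_width f hf hK ⟨G, hG, hGf, H, ⟨e.trans θ⟩⟩ (fun x y z h1 h2 _ => hw x y z h1 h2)

/-- **The dual form**: the special fibre is the greatest one. -/
theorem ext_width_dual [Finite L] (f : LatticeHom L K) (hf : Function.Surjective f)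
    (hK : Representable K)
    (htop : ∃ (G : Type) (_ : Group G) (_ : Finite G) (H : Subgroup G),
      Nonempty ({l : L // IsMax (f l)}ᵒᵈ ≃o {W : Subgroup G // H ≤ W}))
    (hw : ∀ x y z, f x = f y → f x = f z → ¬ IsMax (f x) →
      ¬ x ≤ y → ¬ y ≤ x → ¬ x ≤ z → ¬ z ≤ x → y = z) :
    Representable L := by
  have h1 : Representable Lᵒᵈ := by
    let g : LatticeHom Lᵒᵈ Kᵒᵈ :=
      { toFun := fun x => OrderDual.toDual (f (OrderDual.ofDual x))
        map_sup' := fun x y => congrArg OrderDual.toDual (map_inf f _ _)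
        map_inf' := fun x y => congrArg OrderDual.toDual (map_sup f _ _) }
    have hg : Function.Surjective g := by
      intro k
      obtain ⟨l, hl⟩ := hf (OrderDual.ofDual k)
      exact ⟨OrderDual.toDual l, congrArg OrderDual.toDual hl⟩
    have hLf : Finite Lᵒᵈ := inferInstanceAs (Finite L)
    obtain ⟨G, hG, hGf, H, ⟨θ⟩⟩ := htop
    let e : {l : Lᵒᵈ // IsMin (g l)} ≃o {l : L // IsMax (f l)}ᵒᵈ :=
      { toFun := fun l => OrderDual.toDual ⟨OrderDual.ofDual l.1, fun k hk => l.2 hk⟩
        invFun := fun l => ⟨OrderDual.toDual (OrderDual.ofDual l).1,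
          fun k hk => (OrderDual.ofDual l).2 hk⟩
        left_inv := fun _ => rfl
        right_inv := fun _ => rfl
        map_rel_iff' := Iff.rfl }
    refine ext_width g hg hK.dual ⟨G, hG, hGf, H, ⟨e.trans θ⟩⟩ ?_
    intro x y z h1 h2 h3 h4 h5 h6 h7
    exact hw (OrderDual.ofDual x) (OrderDual.ofDual y) (OrderDual.ofDual z) h1 h2
      (fun h => h3 (fun k hk => h hk)) h5 h4 h7 h6
  exact h1.dual

/-- A fibre which is a chain or has at most four elements satisfies the condition. -/
theorem width_of_card [Finite L] {f : LatticeHom L K} {k : K}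
    (h : (∀ x y, f x = k → f y = k → x ≤ y ∨ y ≤ x) ∨ Nat.card {l : L // f l = k} ≤ 4)
    (x y z : L) (hx : f x = k) (hy : f y = k) (hz : f z = k) (h1 : ¬ x ≤ y) (h2 : ¬ y ≤ x)
    (h3 : ¬ x ≤ z) (h4 : ¬ z ≤ x) : y = z := by
  classical
  rcases h with h | h
  · rcases h x y hx hy with h5 | h5
    · exact absurd h5 h1
    · exact absurd h5 h2
  by_contra hyz
  have hs : ({x, y, z, x ⊓ y, x ⊔ y} : Finset L).card = 5 := by
    have e1 : x ≠ y := fun e => h1 e.le
    have e2 : x ≠ z := fun e => h3 e.le
    have e3 : x ≠ x ⊓ y := fun e => h1 (by rw [e]; exact inf_le_right)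
    have e4 : x ≠ x ⊔ y := fun e => h2 (by rw [e]; exact le_sup_right)
    have e5 : y ≠ x ⊓ y := fun e => h2 (by rw [e]; exact inf_le_left)
    have e6 : y ≠ x ⊔ y := fun e => h1 (by rw [e]; exact le_sup_left)
    have e7 : z ≠ x ⊓ y := fun e => h4 (by rw [e]; exact inf_le_left)
    have e8 : z ≠ x ⊔ y := fun e => h3 (by rw [e]; exact le_sup_left)
    have e9 : x ⊓ y ≠ x ⊔ y := fun e => h1 (by
      have : x ≤ x ⊓ y := by rw [e]; exact le_sup_left
      exact this.trans inf_le_right)
    rw [Finset.card_insert_of_notMem, Finset.card_insert_of_notMem, Finset.card_insert_of_notMem,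
      Finset.card_insert_of_notMem, Finset.card_singleton]
    · simp only [Finset.mem_singleton]
      exact e9
    · simp only [Finset.mem_insert, Finset.mem_singleton, not_or]
      exact ⟨e7, e8⟩
    · simp only [Finset.mem_insert, Finset.mem_singleton, not_or]
      exact ⟨hyz, e5, e6⟩
    · simp only [Finset.mem_insert, Finset.mem_singleton, not_or]
      exact ⟨e1, e2, e3, e4⟩
  have hle : (({x, y, z, x ⊓ y, x ⊔ y} : Finset L) : Set L).ncard ≤ {l : L | f l = k}.ncard := by
    apply Set.ncard_le_ncard _ (Set.toFinite _)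
    intro w hw
    simp only [Finset.coe_insert, Finset.coe_singleton, Set.mem_insert_iff,
      Set.mem_singleton_iff] at hw
    rcases hw with rfl | rfl | rfl | rfl | rfl
    · exact hx
    · exact hy
    · exact hz
    · show f (x ⊓ y) = k
      rw [map_inf, hx, hy, inf_idem]
    · show f (x ⊔ y) = k
      rw [map_sup, hx, hy, sup_idem]
  rw [Set.ncard_coe_finset, hs] at hle
  have h6 : {l : L | f l = k}.ncard = Nat.card {l : L // f l = k} := rfl
  omega

/-- **Small fibres and chains.** -/
theorem ext_small [Finite L] (f : LatticeHom L K) (hf : Function.Surjective f)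
    (hK : Representable K)
    (hbot : ∃ (G : Type) (_ : Group G) (_ : Finite G) (H : Subgroup G),
      Nonempty ({l : L // IsMin (f l)} ≃o {W : Subgroup G // H ≤ W}))
    (hs : ∀ k, ¬ IsMin k →
      (∀ x y, f x = k → f y = k → x ≤ y ∨ y ≤ x) ∨ Nat.card {l : L // f l = k} ≤ 4) :
    Representable L :=
  ext_width f hf hK hbot (fun x y z h1 h2 h3 h4 h5 h6 h7 =>
    width_of_card (hs (f x) h3) x y z rfl h1.symm h2.symm h4 h5 h6 h7)

/-- All fibres small or chains. -/
theorem ext_small' [Finite L] (f : LatticeHom L K) (hf : Function.Surjective f)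
    (hK : Representable K)
    (hs : ∀ k, (∀ x y, f x = k → f y = k → x ≤ y ∨ y ≤ x) ∨ Nat.card {l : L // f l = k} ≤ 4) :
    Representable L :=
  ext_width' f hf hK (fun x y z h1 h2 h4 h5 h6 h7 =>
    width_of_card (hs (f x)) x y z rfl h1.symm h2.symm h4 h5 h6 h7)

end Vale.Agent.P183.H330G
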