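import Vale.Agent.P183.H330G.Core

/-!
Chains are good fibres.
-/

namespace Vale.Agent.P183.H330G

open Vale.Agent.P183 Vale.Agent.P183.H330

variable {L K : Type} [Lattice L] [Lattice K] {f : LatticeHom L K} {lo hi : K → L}

theorem goodFibre_chain [Finite L] (hflo : ∀ k, f (lo k) = k) (hfhi : ∀ k, f (hi k) = k)
    (hlo : ∀ l, lo (f l) ≤ l) (hhi : ∀ l, l ≤ hi (f l)) (t : K)
    (hch : ∀ x y, f x = t → f y = t → x ≤ y ∨ y ≤ x) : GoodFibre f lo t := by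
  classical
  intro n
  obtain ⟨S, hH, hT, hU⟩ := exists_sp (t := t) hflo hfhi hlo hhi (by
    intro x y z hx hy _
    rcases hch x y hx hy with h | h
    · rw [inf_eq_left.2 h, inf_eq_left.2 (sup_le_sup_right h z)]
    · rw [inf_eq_right.2 h, inf_eq_right.2 (sup_le_sup_right h z)]) n
  refine ⟨S, isoSub S, le_rfl, fun ω => ⟨fun W h1 h2 => homog_int hH hT ω W h1 h2,
    fun a b ha _ h => homog_gen hH hT ω a b ha h⟩, ?_⟩
  intro A _ hA δ hδf hself hsymm htri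
  obtain ⟨i, hi⟩ := hU A hA δ hδf hself hsymm htri
  refine ⟨i, hi, ?_, ?_⟩
  · intro x a b l l' hl hl' h h'
    rcases hch l l' hl hl' with h1 | h1
    · exact ⟨a, by rw [inf_eq_left.2 h1]; exact h⟩
    · exact ⟨b, by rw [inf_eq_right.2 h1]; exact h'⟩
  · intro A' σ hσ _
    have hA' : ∀ x : i '' A', ∃ a ∈ A', i a = x.1 := fun x => x.2
    choose p hp1 hp2 using hA'
    let τ : S.X → S.X := fun x => if h : x ∈ i '' A' then i (σ (p ⟨x, h⟩)) else x
    have hτ : ∀ x (h : x ∈ i '' A'), τ x = i (σ (p ⟨x, h⟩)) := fun x h => dif_pos h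
    obtain ⟨g, hg1, hg2⟩ := hH (i '' A') τ (by
      intro x hx y hy
      rw [hτ x hx, hτ y hy, hi, hσ _ (hp1 _) _ (hp1 _), ← hi, hp2, hp2])
    refine ⟨g, hg1, fun a ha => ?_⟩
    have hx : i a ∈ i '' A' := ⟨a, ha, rfl⟩
    rw [hg2 _ hx, hτ _ hx]
    apply (S.self _ _).1
    rw [hi, hσ _ (hp1 _) _ ha, ← hi, hp2]
    exact (S.self _ _).2 rfl

end Vale.Agent.P183.H330G
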