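import Vale.Agent.P183.H330G.Lin
import Mathlib.Algebra.Group.Subgroup.Lattice
import Mathlib.GroupTheory.Perm.Basic

/-!
Incident point-hyperplane pairs over the field with two elements.
-/

namespace Vale.Agent.P183.H330G

open Matrix Module

/-- Incident pairs of a nonzero vector and a nonzero functional. -/
def Fl (ι : Type) [Fintype ι] : Type :=
  {p : (ι → ZMod 2) × (ι → ZMod 2) // p.1 ≠ 0 ∧ p.2 ≠ 0 ∧ p.1 ⬝ᵥ p.2 = 0}

variable {ι : Type} [Fintype ι] [DecidableEq ι]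

instance : Finite (Fl ι) := by
  unfold Fl
  infer_instance

/-- The group of the geometry. -/
def flB (ι : Type) [Fintype ι] : Subgroup (Equiv.Perm (Fl ι)) where
  carrier := {π | ∃ g g' : Equiv.Perm (ι → ZMod 2), (∀ x y, g x ⬝ᵥ g' y = x ⬝ᵥ y) ∧
    ∀ p : Fl ι, (π p).1 = (g p.1.1, g' p.1.2)}
  one_mem' := ⟨1, 1, fun _ _ => rfl, fun _ => rfl⟩
  mul_mem' := by
    rintro π ρ ⟨g, g', h1, h2⟩ ⟨k, k', h3, h4⟩
    refine ⟨g * k, g' * k', fun x y => ?_, fun p => ?_⟩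
    · show g (k x) ⬝ᵥ g' (k' y) = _
      rw [h1, h3]
    · show (π (ρ p)).1 = _
      rw [h2, h4]
      rfl
  inv_mem' := by
    rintro π ⟨g, g', h1, h2⟩
    refine ⟨g⁻¹, g'⁻¹, fun x y => ?_, fun p => ?_⟩
    · rw [← h1]
      show g (g.symm x) ⬝ᵥ g' (g'.symm y) = _
      rw [Equiv.apply_symm_apply, Equiv.apply_symm_apply]
    · obtain ⟨q, rfl⟩ := π.surjective p
      have e : π⁻¹ (π q) = q := π.symm_apply_apply q
      rw [e, h2]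
      show q.1 = (g.symm (g q.1.1), g'.symm (g' q.1.2))
      rw [Equiv.symm_apply_apply, Equiv.symm_apply_apply]

omit [DecidableEq ι] in
theorem mem_flB {π : Equiv.Perm (Fl ι)} : π ∈ flB ι ↔
    ∃ g g' : Equiv.Perm (ι → ZMod 2), (∀ x y, g x ⬝ᵥ g' y = x ⬝ᵥ y) ∧
      ∀ p : Fl ι, (π p).1 = (g p.1.1, g' p.1.2) := Iff.rfl

omit [DecidableEq ι] in
theorem mk_flB (g g' : (ι → ZMod 2) ≃ₗ[ZMod 2] (ι → ZMod 2)) (h : ∀ x y, g x ⬝ᵥ g' y = x ⬝ᵥ y) :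
    ∃ π ∈ flB ι, ∀ p : Fl ι, (π p).1 = (g p.1.1, g' p.1.2) := by
  let F : Fl ι → Fl ι := fun p => ⟨(g p.1.1, g' p.1.2), by
    obtain ⟨h1, h2, h3⟩ := p.2
    exact ⟨fun h => h1 (g.map_eq_zero_iff.1 h), fun h => h2 (g'.map_eq_zero_iff.1 h), by
      rw [h]; exact h3⟩⟩
  have hinj : Function.Injective F := by
    intro p q hpq
    have h1 : (g p.1.1, g' p.1.2) = (g q.1.1, g' q.1.2) := congrArg Subtype.val hpq
    rw [Prod.mk.injEq] at h1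
    exact Subtype.ext (Prod.ext (g.injective h1.1) (g'.injective h1.2))
  let π := Equiv.ofBijective F ((Finite.injective_iff_bijective).1 hinj)
  exact ⟨π, ⟨g.toEquiv, g'.toEquiv, h, fun p => rfl⟩, fun p => rfl⟩

/-- Partial isomorphisms extend. -/
theorem fl_witt {I J : Type} [Fintype I] [Fintype J] [DecidableEq J]
    (v v' : I → ι → ZMod 2) (w w' : J → ι → ZMod 2)
    (hv : LinearIndependent (ZMod 2) v) (hv' : LinearIndependent (ZMod 2) v')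
    (hw : LinearIndependent (ZMod 2) w) (hw' : LinearIndependent (ZMod 2) w')
    (hG : ∀ i j, v i ⬝ᵥ w j = v' i ⬝ᵥ w' j) :
    ∃ π ∈ flB ι, ∀ (p q : Fl ι), (∃ i, p.1.1 = v i ∧ q.1.1 = v' i) →
      (∃ j, p.1.2 = w j ∧ q.1.2 = w' j) → π p = q := by
  obtain ⟨g, g', h1, h2, h3⟩ := witt' v v' w w' hv hv' hw hw' hG
  obtain ⟨π, hπ, h4⟩ := mk_flB g g' h1
  refine ⟨π, hπ, ?_⟩
  rintro p q ⟨i, hi1, hi2⟩ ⟨j, hj1, hj2⟩
  apply Subtype.ext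
  rw [h4, hi1, hj1, h2, h3, ← hi2, ← hj2]

omit [Fintype ι] [DecidableEq ι] in
theorem li_one {a : ι → ZMod 2} (h : a ≠ 0) :
    LinearIndependent (ZMod 2) (fun _ : Unit => a) :=
  LinearIndependent.of_subsingleton () h

omit [Fintype ι] [DecidableEq ι] in
theorem li_two {a b : ι → ZMod 2} (ha : a ≠ 0) (hb : b ≠ 0) (hab : a ≠ b) :
    LinearIndependent (ZMod 2) ![a, b] := by
  rw [LinearIndependent.pair_iff]
  have h01 : ∀ s : ZMod 2, s = 0 ∨ s = 1 := by decide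
  intro s t h
  rcases h01 s with rfl | rfl <;> rcases h01 t with rfl | rfl
  · exact ⟨rfl, rfl⟩
  · rw [zero_smul, one_smul, zero_add] at h
    exact absurd h hb
  · rw [zero_smul, one_smul, add_zero] at h
    exact absurd h ha
  · rw [one_smul, one_smul] at h
    have h2 : a = b := by
      have h3 : b + b = 0 := by
        funext i
        show b i + b i = 0
        rcases h01 (b i) with h4 | h4 <;> rw [h4] <;> decide
      calc a = a + (b + b) := by rw [h3, add_zero]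
        _ = (a + b) + b := by rw [add_assoc]
        _ = b := by rw [h, zero_add]
    exact absurd h2 hab

/-- Two pairs of flags are equivalent. -/
def RelB (x y x' y' : Fl ι) : Prop := ∃ π ∈ flB ι, π x = x' ∧ π y = y'

theorem rel_both {x y x' y' : Fl ι} (h1 : x.1.1 ≠ y.1.1) (h2 : x.1.2 ≠ y.1.2)
    (h1' : x'.1.1 ≠ y'.1.1) (h2' : x'.1.2 ≠ y'.1.2)
    (h3 : x.1.1 ⬝ᵥ y.1.2 = x'.1.1 ⬝ᵥ y'.1.2) (h4 : y.1.1 ⬝ᵥ x.1.2 = y'.1.1 ⬝ᵥ x'.1.2) :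
    RelB x y x' y' := by
  obtain ⟨π, hπ, h⟩ := fl_witt ![x.1.1, y.1.1] ![x'.1.1, y'.1.1] ![x.1.2, y.1.2] ![x'.1.2, y'.1.2]
    (li_two x.2.1 y.2.1 h1) (li_two x'.2.1 y'.2.1 h1') (li_two x.2.2.1 y.2.2.1 h2)
    (li_two x'.2.2.1 y'.2.2.1 h2') (by
      intro i j
      fin_cases i <;> fin_cases j
      · exact x.2.2.2.trans x'.2.2.2.symm
      · exact h3
      · exact h4
      · exact y.2.2.2.trans y'.2.2.2.symm)
  exact ⟨π, hπ, h x x' ⟨0, rfl, rfl⟩ ⟨0, rfl, rfl⟩, h y y' ⟨1, rfl, rfl⟩ ⟨1, rfl, rfl⟩⟩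

theorem rel_left {x y x' y' : Fl ι} (h1 : x.1.1 ≠ y.1.1) (h2 : x.1.2 = y.1.2)
    (h1' : x'.1.1 ≠ y'.1.1) (h2' : x'.1.2 = y'.1.2) : RelB x y x' y' := by
  obtain ⟨π, hπ, h⟩ := fl_witt ![x.1.1, y.1.1] ![x'.1.1, y'.1.1] (fun _ : Unit => x.1.2)
    (fun _ : Unit => x'.1.2)
    (li_two x.2.1 y.2.1 h1) (li_two x'.2.1 y'.2.1 h1') (li_one x.2.2.1) (li_one x'.2.2.1) (by
      intro i j
      fin_cases i
      · exact x.2.2.2.trans x'.2.2.2.symm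
      · show y.1.1 ⬝ᵥ x.1.2 = y'.1.1 ⬝ᵥ x'.1.2
        rw [h2, h2', y.2.2.2, y'.2.2.2])
  exact ⟨π, hπ, h x x' ⟨0, rfl, rfl⟩ ⟨(), rfl, rfl⟩,
    h y y' ⟨1, rfl, rfl⟩ ⟨(), h2.symm, h2'.symm⟩⟩

theorem rel_one (x x' : Fl ι) : ∃ π ∈ flB ι, π x = x' := by
  obtain ⟨π, hπ, h⟩ := fl_witt (fun _ : Unit => x.1.1) (fun _ : Unit => x'.1.1)
    (fun _ : Unit => x.1.2) (fun _ : Unit => x'.1.2)
    (li_one x.2.1) (li_one x'.2.1) (li_one x.2.2.1) (li_one x'.2.2.1)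
    (fun _ _ => x.2.2.2.trans x'.2.2.2.symm)
  exact ⟨π, hπ, h x x' ⟨(), rfl, rfl⟩ ⟨(), rfl, rfl⟩⟩

/-- The polarity. -/
def sw (p : Fl ι) : Fl ι := ⟨(p.1.2, p.1.1), p.2.2.1, p.2.1, by
  rw [dotProduct_comm]; exact p.2.2.2⟩

omit [DecidableEq ι] in
theorem sw_sw (p : Fl ι) : sw (sw p) = p := rfl

omit [DecidableEq ι] in
theorem rel_sw {x y x' y' : Fl ι} (h : RelB x y x' y') : RelB (sw x) (sw y) (sw x') (sw y') := by
  obtain ⟨π, ⟨g, g', h1, h2⟩, h3, h4⟩ := h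
  let s : Equiv.Perm (Fl ι) := ⟨sw, sw, sw_sw, sw_sw⟩
  refine ⟨s * π * s, ⟨g', g, fun x y => ?_, fun p => ?_⟩, ?_, ?_⟩
  · rw [dotProduct_comm, h1, dotProduct_comm]
  · show ((sw (π (sw p)))).1 = _
    show ((π (sw p)).1.2, (π (sw p)).1.1) = _
    rw [h2]
    rfl
  · show sw (π (sw (sw x))) = _
    rw [sw_sw, h3]
  · show sw (π (sw (sw y))) = _
    rw [sw_sw, h4]

theorem exists_avoid_range {I J : Type} [Fintype I] [Fintype J] [DecidableEq J]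
    (w : J → ι → ZMod 2) (hw : LinearIndependent (ZMod 2) w) (c : J → ZMod 2)
    (v : I → ι → ZMod 2) (h : Fintype.card I + Fintype.card J < Fintype.card ι) :
    ∃ x, x ∉ Submodule.span (ZMod 2) (Set.range v) ∧ ∀ j, x ⬝ᵥ w j = c j := by
  refine exists_avoid w hw c _ ?_
  have h1 : finrank (ZMod 2) (Submodule.span (ZMod 2) (Set.range v)) ≤ Fintype.card I :=
    finrank_range_le_card v
  omega

/-- The moves of the first coordinate. -/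
theorem left_moves (hι : 5 ≤ Fintype.card ι) (ω : Fl ι) (O : Set (Fl ι)) (h0 : ω ∈ O)
    (r1 : ∀ x y z, x ∈ O → y ∈ O → RelB ω y x z → z ∈ O)
    (r2 : ∀ x y z, x ∈ O → y ∈ O → RelB ω y z x → z ∈ O)
    (y0 : Fl ι) (hy0 : y0 ∈ O) (hne : ω.1.1 ≠ y0.1.1) :
    ∀ x ∈ O, ∀ z : Fl ι, x.1.2 = z.1.2 → z ∈ O := by
  have step1 : ∃ x1 ∈ O, ω.1.1 ≠ x1.1.1 ∧ ω.1.2 = x1.1.2 := by
    by_cases hw : ω.1.2 = y0.1.2
    · exact ⟨y0, hy0, hne, hw⟩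
    obtain ⟨v1, hv1, hv1'⟩ := exists_avoid_range (fun _ : Unit => ω.1.2) (li_one ω.2.2.1)
      (fun _ => 0) (fun _ : Unit => ω.1.1) (by
        rw [Fintype.card_unit]; omega)
    have hv1ne : ω.1.1 ≠ v1 := fun h => hv1 (h ▸ Submodule.subset_span ⟨(), rfl⟩)
    have hv10 : v1 ≠ 0 := fun h => hv1 (by rw [h]; exact Submodule.zero_mem _)
    obtain ⟨v2, hv2, hv2'⟩ := exists_avoid_range (fun _ : Unit => ω.1.2) (li_one ω.2.2.1)
      (fun _ => y0.1.1 ⬝ᵥ ω.1.2) ![ω.1.1, v1] (by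
        rw [Fintype.card_unit, Fintype.card_fin]; omega)
    have hv20 : v2 ≠ 0 := fun h => hv2 (by rw [h]; exact Submodule.zero_mem _)
    have hv2a : ω.1.1 ≠ v2 := fun h => hv2 (h ▸ Submodule.subset_span ⟨0, rfl⟩)
    have hv2b : v1 ≠ v2 := fun h => hv2 (h ▸ Submodule.subset_span ⟨1, rfl⟩)
    obtain ⟨w2, hw2, hw2'⟩ := exists_avoid_range
      (fun o : Option (Fin 2) => o.elim v2 ![ω.1.1, v1])
      (linearIndependent_option.2 ⟨li_two ω.2.1 hv10 hv1ne, hv2⟩)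
      (fun o => o.elim 0 (fun _ => ω.1.1 ⬝ᵥ y0.1.2)) (fun _ : Unit => ω.1.2) (by
        rw [Fintype.card_unit, Fintype.card_option, Fintype.card_fin]; omega)
    have hw20 : w2 ≠ 0 := fun h => hw2 (by rw [h]; exact Submodule.zero_mem _)
    have hw2a : ω.1.2 ≠ w2 := fun h => hw2 (h ▸ Submodule.subset_span ⟨(), rfl⟩)
    have e1 : ω.1.1 ⬝ᵥ w2 = ω.1.1 ⬝ᵥ y0.1.2 := by
      rw [dotProduct_comm]; exact hw2' (some 0)
    have e2 : v1 ⬝ᵥ w2 = ω.1.1 ⬝ᵥ y0.1.2 := by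
      rw [dotProduct_comm]; exact hw2' (some 1)
    have e3 : v2 ⬝ᵥ w2 = 0 := by
      rw [dotProduct_comm]; exact hw2' none
    let z : Fl ι := ⟨(v2, w2), hv20, hw20, e3⟩
    let x1 : Fl ι := ⟨(v1, ω.1.2), hv10, ω.2.2.1, hv1' ()⟩
    have hz : z ∈ O := r1 ω y0 z h0 hy0 (rel_both hne hw hv2a hw2a e1.symm (hv2' ()).symm)
    refine ⟨x1, r2 z y0 x1 hz hy0 (rel_both hne hw hv2b hw2a e2.symm (hv2' ()).symm), hv1ne, rfl⟩
  obtain ⟨x1, hx1, h1, h2⟩ := step1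
  intro x hx z hz
  by_cases h3 : x.1.1 = z.1.1
  · have : x = z := Subtype.ext (Prod.ext h3 hz)
    rwa [← this]
  · exact r1 x x1 z hx hx1 (rel_left h1 h2 h3 hz)

/-- The moves of the second coordinate. -/
theorem right_moves (hι : 5 ≤ Fintype.card ι) (ω : Fl ι) (O : Set (Fl ι)) (h0 : ω ∈ O)
    (r1 : ∀ x y z, x ∈ O → y ∈ O → RelB ω y x z → z ∈ O)
    (r2 : ∀ x y z, x ∈ O → y ∈ O → RelB ω y z x → z ∈ O)
    (y0 : Fl ι) (hy0 : y0 ∈ O) (hne : ω.1.2 ≠ y0.1.2) :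
    ∀ x ∈ O, ∀ z : Fl ι, x.1.1 = z.1.1 → z ∈ O := by
  intro x hx z hz
  exact left_moves hι (sw ω) {p | sw p ∈ O} h0
    (fun x y z hx hy h => r1 _ _ _ hx hy (rel_sw h))
    (fun x y z hx hy h => r2 _ _ _ hx hy (rel_sw h)) (sw y0) hy0 hne (sw x) hx (sw z) hz

/-- The group generated by a point stabilizer and elements moving both coordinates is
transitive. -/
theorem both_moves (hι : 5 ≤ Fintype.card ι) (ω : Fl ι) (O : Set (Fl ι)) (h0 : ω ∈ O)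
    (hL : ∀ x ∈ O, ∀ z : Fl ι, x.1.2 = z.1.2 → z ∈ O)
    (hR : ∀ x ∈ O, ∀ z : Fl ι, x.1.1 = z.1.1 → z ∈ O) (z : Fl ι) : z ∈ O := by
  by_cases h : ω.1.1 = z.1.1
  · exact hR ω h0 z h
  obtain ⟨w1, hw1, hw1'⟩ := exists_avoid_range ![ω.1.1, z.1.1] (li_two ω.2.1 z.2.1 h)
    (fun _ => 0) (fun _ : Unit => (0 : ι → ZMod 2)) (by
      rw [Fintype.card_unit, Fintype.card_fin]; omega)
  have hw10 : w1 ≠ 0 := fun h => hw1 (by rw [h]; exact Submodule.zero_mem _)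
  have e1 : ω.1.1 ⬝ᵥ w1 = 0 := by rw [dotProduct_comm]; exact hw1' 0
  have e2 : z.1.1 ⬝ᵥ w1 = 0 := by rw [dotProduct_comm]; exact hw1' 1
  let a : Fl ι := ⟨(ω.1.1, w1), ω.2.1, hw10, e1⟩
  let b : Fl ι := ⟨(z.1.1, w1), z.2.1, hw10, e2⟩
  exact hR b (hL a (hR ω h0 a rfl) b rfl) z rfl

/-- Flags in all relative positions. -/
theorem exists_right (hι : 5 ≤ Fintype.card ι) (ω : Fl ι) :
    ∃ z : Fl ι, z.1.1 = ω.1.1 ∧ z.1.2 ≠ ω.1.2 := by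
  obtain ⟨w1, hw1, hw1'⟩ := exists_avoid_range (fun _ : Unit => ω.1.1) (li_one ω.2.1)
    (fun _ => 0) (fun _ : Unit => ω.1.2) (by rw [Fintype.card_unit]; omega)
  have hw10 : w1 ≠ 0 := fun h => hw1 (by rw [h]; exact Submodule.zero_mem _)
  have hne : w1 ≠ ω.1.2 := fun h => hw1 (h ▸ Submodule.subset_span ⟨(), rfl⟩)
  exact ⟨⟨(ω.1.1, w1), ω.2.1, hw10, by rw [dotProduct_comm]; exact hw1' ()⟩, rfl, hne⟩

theorem exists_left (hι : 5 ≤ Fintype.card ι) (ω : Fl ι) :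
    ∃ z : Fl ι, z.1.1 ≠ ω.1.1 ∧ z.1.2 = ω.1.2 := by
  obtain ⟨z, h1, h2⟩ := exists_right hι (sw ω)
  exact ⟨sw z, h2, h1⟩

theorem exists_both (hι : 5 ≤ Fintype.card ι) (ω : Fl ι) :
    ∃ z : Fl ι, z.1.1 ≠ ω.1.1 ∧ z.1.2 ≠ ω.1.2 := by
  obtain ⟨y, h1, h2⟩ := exists_left hι ω
  obtain ⟨z, h3, h4⟩ := exists_right hι y
  exact ⟨z, by rw [h3]; exact h1, by rw [← h2]; exact h4⟩

end Vale.Agent.P183.H330G
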