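import Vale.Agent.P183.H330G.Flag
import Vale.Agent.P183.H330G.Core

/-!
Gated universal spaces with distances in an interval of a lattice.
-/

namespace Vale.Agent.P183.H330G

open Vale.Agent.P183 Vale.Agent.P183.H330 Matrix

variable {L : Type} [Lattice L]

/-- A finite nonempty space with a distance in the interval `[a, b]`. -/
structure Si (a b : L) where
  X : Type
  fin : Finite X
  ne : Nonempty X
  d : X → X → L
  ge : ∀ x y, a ≤ d x y
  le : ∀ x y, d x y ≤ b
  self : ∀ x y, d x y = a ↔ x = y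
  symm : ∀ x y, d x y = d y x
  tri : ∀ x y z, d x z ≤ d x y ⊔ d y z

variable {a b : L}

/-- See `LevOK`. -/
def LevI (S : Si a b) (B : Subgroup (Equiv.Perm S.X)) (n : ℕ) : Prop :=
  ∀ (A : Type) [Finite A], Nat.card A ≤ n → ∀ δ : A → A → L, (∀ x y, a ≤ δ x y) →
    (∀ x y, δ x y ≤ b) → (∀ x, δ x x = a) → (∀ x y, δ x y = δ y x) →
    (∀ x y z, δ x z ≤ δ x y ⊔ δ y z) →
    ∃ i : A → S.X, (∀ x y, S.d (i x) (i y) = δ x y) ∧
      (∀ x y z l l', a ≤ l → l ≤ b → a ≤ l' → l' ≤ b → S.d x (i y) ≤ l → S.d x (i z) ≤ l' →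
        ∃ c, S.d x (i c) ≤ l ⊓ l') ∧
      ∀ (A' : Set A) (σ : A → A), (∀ x ∈ A', ∀ y ∈ A', δ (σ x) (σ y) = δ x y) →
        (∀ x ∈ A', ∀ y ∈ A', ∀ l l', a ≤ l → l ≤ b → a ≤ l' → l' ≤ b →
          ((∃ c, δ c x ≤ l ∧ δ c y ≤ l') ↔ ∃ c, δ c (σ x) ≤ l ∧ δ c (σ y) ≤ l')) →
        ∃ g ∈ B, ∀ x ∈ A', g (i x) = i (σ x)

/-- See `IntOK`. -/
def IntI (S : Si a b) (B : Subgroup (Equiv.Perm S.X)) (ω : S.X) : Prop :=
  (∀ W : Subgroup (Equiv.Perm S.X), W ≤ B → (∀ g ∈ B, g ω = ω → g ∈ W) →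
    ∃ c, a ≤ c ∧ c ≤ b ∧ ∀ g ∈ B, (g ∈ W ↔ S.d (g ω) ω ≤ c)) ∧
  ∀ x y, a ≤ x → x ≤ b → a ≤ y → y ≤ b →
    (∀ g ∈ B, S.d (g ω) ω ≤ x → S.d (g ω) ω ≤ y) → x ≤ y

/-- The interval `[a, b]` has gated universal spaces. -/
def GoodI (a b : L) : Prop :=
  ∀ n, ∃ (S : Si a b) (B : Subgroup (Equiv.Perm S.X)),
    (∀ g ∈ B, ∀ x y, S.d (g x) (g y) = S.d x y) ∧ (∀ ω, IntI S B ω) ∧ LevI S B n

/-- From intervals to fibres. -/
theorem goodFibre_of {K : Type} [Lattice K] {f : LatticeHom L K} {lo hi : K → L}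
    (hlo : ∀ l, lo (f l) ≤ l) (hhi : ∀ l, l ≤ hi (f l)) (hflo : ∀ k, f (lo k) = k)
    (hfhi : ∀ k, f (hi k) = k) {t : K} (h : GoodI (lo t) (hi t)) : GoodFibre f lo t := by
  have hiff : ∀ l, f l = t ↔ lo t ≤ l ∧ l ≤ hi t := by
    intro l
    constructor
    · rintro rfl
      exact ⟨hlo l, hhi l⟩
    · rintro ⟨h1, h2⟩
      apply le_antisymm
      · have := OrderHomClass.mono f h2
        rwa [hfhi] at this
      · have := OrderHomClass.mono f h1
        rwa [hflo] at this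
  intro n
  obtain ⟨S, B, h1, h2, h3⟩ := h n
  refine ⟨⟨S.X, S.fin, S.ne, S.d, fun x y => (hiff _).2 ⟨S.ge x y, S.le x y⟩, S.self, S.symm,
    S.tri⟩, B, fun g hg => h1 g hg, fun ω => ⟨?_, ?_⟩, ?_⟩
  · intro W hW1 hW2
    obtain ⟨c, hc1, hc2, hc3⟩ := (h2 ω).1 W hW1 hW2
    exact ⟨c, (hiff _).2 ⟨hc1, hc2⟩, hc3⟩
  · intro x y hx hy hxy
    obtain ⟨hx1, hx2⟩ := (hiff _).1 hx
    obtain ⟨hy1, hy2⟩ := (hiff _).1 hy
    exact (h2 ω).2 x y hx1 hx2 hy1 hy2 hxy
  · intro A _ hA δ hf hs hsy ht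
    obtain ⟨i, hi1, hi2, hi3⟩ := h3 A hA δ (fun x y => ((hiff _).1 (hf x y)).1)
      (fun x y => ((hiff _).1 (hf x y)).2) hs hsy ht
    refine ⟨i, hi1, fun x y z l l' hl hl' => ?_, fun A' σ hσ1 hσ2 => hi3 A' σ hσ1 ?_⟩
    · obtain ⟨e1, e2⟩ := (hiff _).1 hl
      obtain ⟨e3, e4⟩ := (hiff _).1 hl'
      exact hi2 x y z l l' e1 e2 e3 e4
    · intro x hx y hy l l' e1 e2 e3 e4
      exact hσ2 x hx y hy l l' ((hiff _).2 ⟨e1, e2⟩) ((hiff _).2 ⟨e3, e4⟩)

/-- One point. -/
theorem goodI_refl (a : L) : GoodI a a := by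
  intro n
  let S : Si a a :=
    { X := Unit
      fin := inferInstance
      ne := ⟨()⟩
      d := fun _ _ => a
      ge := fun _ _ => le_rfl
      le := fun _ _ => le_rfl
      self := fun _ _ => ⟨fun _ => rfl, fun _ => rfl⟩
      symm := fun _ _ => rfl
      tri := fun _ _ _ => le_sup_left }
  refine ⟨S, ⊤, fun _ _ _ _ => rfl, fun ω => ⟨fun W _ hW => ?_, ?_⟩, ?_⟩
  · exact ⟨a, le_rfl, le_rfl, fun g hg => ⟨fun _ => le_rfl, fun _ => hW g hg rfl⟩⟩
  · intro x y _ hx hy _ _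
    exact hx.trans hy
  · intro A _ _ δ h1 h2 _ _ _
    refine ⟨fun _ => (), fun x y => le_antisymm (h1 x y) (h2 x y), ?_, ?_⟩
    · intro x y z l l' hl _ hl' _ _ _
      exact ⟨y, le_inf hl hl'⟩
    · intro A' σ _ _
      exact ⟨1, trivial, fun _ _ => rfl⟩

/-- Two points. -/
theorem goodI_two (hab : a < b) (h2 : ∀ x, a ≤ x → x ≤ b → x = a ∨ x = b) : GoodI a b := by
  classical
  intro n
  let S : Si a b :=
    { X := Fin (n + 2)
      fin := inferInstance
      ne := ⟨0⟩
      d := fun x y => if x = y then a else b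
      ge := fun x y => by
        show a ≤ if x = y then a else b
        split_ifs
        · exact le_rfl
        · exact hab.le
      le := fun x y => by
        show (if x = y then a else b) ≤ b
        split_ifs
        · exact hab.le
        · exact le_rfl
      self := fun x y => by
        show (if x = y then a else b) = a ↔ _
        split_ifs with h
        · exact ⟨fun _ => h, fun _ => rfl⟩
        · exact ⟨fun h' => absurd h' hab.ne', fun h' => absurd h' h⟩
      symm := fun x y => by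
        show (if x = y then a else b) = if y = x then a else b
        by_cases h : x = y
        · rw [if_pos h, if_pos h.symm]
        · rw [if_neg h, if_neg (fun h' => h h'.symm)]
      tri := fun x y z => by
        show (if x = z then a else b) ≤ (if x = y then a else b) ⊔ if y = z then a else b
        by_cases h : x = y
        · subst h
          rw [if_pos rfl]
          exact le_sup_right
        · rw [if_neg h]
          refine le_trans ?_ le_sup_left
          split_ifs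
          · exact hab.le
          · exact le_rfl }
  have hd : ∀ x y, S.d x y = if x = y then a else b := fun _ _ => rfl
  have hdle : ∀ x y, S.d x y ≤ a ↔ x = y := fun x y =>
    ⟨fun h => (S.self x y).1 (le_antisymm h (S.ge x y)), fun h => ((S.self x y).2 h).le⟩
  have hdb : ∀ x y, x ≠ y → S.d x y = b := fun x y h => if_neg h
  refine ⟨S, ⊤, fun g _ x y => ?_, fun ω => ⟨fun W _ hW => ?_, ?_⟩, ?_⟩
  · rw [hd, hd]
    by_cases h : x = y
    · rw [if_pos h, if_pos (congrArg g h)]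
    · rw [if_neg h, if_neg (fun h' => h (g.injective h'))]
  · by_cases hmove : ∃ g ∈ W, g ω ≠ ω
    · obtain ⟨g0, hg0, hne0⟩ := hmove
      refine ⟨b, hab.le, le_rfl, fun g _ => ⟨fun _ => S.le _ _, fun _ => ?_⟩⟩
      by_cases h : g ω = ω
      · exact hW g trivial h
      · -- move `g0 ω` to `g ω` and fix `ω`
        let s : Equiv.Perm S.X := Equiv.swap (g0 ω) (g ω)
        have hs1 : s ω = ω := Equiv.swap_apply_of_ne_of_ne (fun h' => hne0 h'.symm)
          (fun h' => h h'.symm)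
        have hs2 : s (g0 ω) = g ω := Equiv.swap_apply_left _ _
        have hs : s ∈ W := hW s trivial hs1
        have h3 : (s * g0)⁻¹ * g ∈ W := hW _ trivial (by
          show (s * g0)⁻¹ (g ω) = ω
          rw [← hs2]
          exact (s * g0).symm_apply_apply ω)
        have := W.mul_mem (W.mul_mem hs hg0) h3
        rwa [mul_inv_cancel_left] at this
    · push Not at hmove
      refine ⟨a, le_rfl, hab.le, fun g _ => ?_⟩
      rw [hdle]
      exact ⟨fun h => hmove g h, fun h => hW g trivial h⟩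
  · intro x y hx1 hx2 hy1 hy2 h
    rcases h2 x hx1 hx2 with rfl | rfl
    · exact hy1
    · obtain ⟨z, hz⟩ : ∃ z : S.X, z ≠ ω := by
        by_cases h0 : ω = (0 : Fin (n + 2))
        · exact ⟨(1 : Fin (n + 2)), by rw [h0]; exact Fin.zero_ne_one.symm⟩
        · exact ⟨(0 : Fin (n + 2)), fun h' => h0 h'.symm⟩
      have h3 := h (Equiv.swap ω z) trivial (S.le _ _)
      rw [Equiv.swap_apply_left, hdb _ _ hz] at h3
      exact h3
  · intro A _ hA δ hδ1 hδ2 hδs hδsy hδt
    let r : Setoid A :=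
      { r := fun x y => δ x y = a
        iseqv := ⟨hδs, fun {x y} h => by rw [hδsy]; exact h, fun {x y z} h h' =>
          le_antisymm (by have := hδt x y z; rwa [h, h', sup_idem] at this) (hδ1 _ _)⟩ }
    have hcard : Nat.card (Quotient r) ≤ Nat.card (Fin (n + 2)) := by
      have h3 := Nat.card_le_card_of_surjective (Quotient.mk r) Quotient.mk_surjective
      rw [Nat.card_fin]
      omega
    obtain ⟨e⟩ : Nonempty (Quotient r ↪ Fin (n + 2)) := by
      have := Fintype.ofFinite (Quotient r)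
      rw [Nat.card_eq_fintype_card, Nat.card_eq_fintype_card] at hcard
      exact Function.Embedding.nonempty_of_card_le hcard
    let i : A → S.X := fun x => e (Quotient.mk r x)
    have hi : ∀ x y, i x = i y ↔ δ x y = a := by
      intro x y
      rw [e.injective.eq_iff]
      exact Quotient.eq
    refine ⟨i, fun x y => ?_, ?_, ?_⟩
    · by_cases h : δ x y = a
      · rw [h]; exact (S.self _ _).2 ((hi x y).2 h)
      · rcases h2 _ (hδ1 x y) (hδ2 x y) with h' | h'
        · exact absurd h' h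
        · rw [h', hdb _ _ (fun h'' => h ((hi x y).1 h''))]
    · intro x y z l l' hl1 hl2 hl1' hl2' h h'
      rcases h2 l hl1 hl2 with rfl | rfl
      · exact ⟨y, le_inf h (h.trans hl1')⟩
      · exact ⟨z, le_inf (S.le _ _) h'⟩
    · intro A' σ hσ _
      obtain ⟨g, hg⟩ := exists_perm_extends (Z := S.X) {p | ∃ x ∈ A', p = (i x, i (σ x))} (by
        rintro _ ⟨x, hx, rfl⟩ _ ⟨y, hy, rfl⟩
        show i x = i y ↔ i (σ x) = i (σ y)
        rw [hi, hi, hσ x hx y hy])
      exact ⟨g, trivial, fun x hx => hg _ ⟨x, hx, rfl⟩⟩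

end Vale.Agent.P183.H330G
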