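import Vale.Agent.P183.H330.Ext
import Mathlib.Algebra.Group.Subgroup.Lattice

/-!
Gluing spaces along gated subspaces: a system of maps over an arbitrary finite lattice.
-/

namespace Vale.Agent.P183.H330G

open Vale.Agent.P183.H330

variable {L K : Type} [Lattice L] [Lattice K] {f : LatticeHom L K} {lo hi : K → L}

/-- The space `S` with the group `B` contains every pseudometric space with at most `n` points, as
a gated subspace, and every partial isomorphism extends to an element of `B`. -/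
def LevOK {t : K} (S : Sp f lo t) (B : Subgroup (Equiv.Perm S.X)) (n : ℕ) : Prop :=
  ∀ (A : Type) [Finite A], Nat.card A ≤ n → ∀ δ : A → A → L, (∀ a b, f (δ a b) = t) →
    (∀ a, δ a a = lo t) → (∀ a b, δ a b = δ b a) → (∀ a b c, δ a c ≤ δ a b ⊔ δ b c) →
    ∃ i : A → S.X, (∀ a b, S.d (i a) (i b) = δ a b) ∧
      (∀ x a b l l', f l = t → f l' = t → S.d x (i a) ≤ l → S.d x (i b) ≤ l' →
        ∃ c, S.d x (i c) ≤ l ⊓ l') ∧
      ∀ (A' : Set A) (σ : A → A), (∀ a ∈ A', ∀ b ∈ A', δ (σ a) (σ b) = δ a b) →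
        (∀ a ∈ A', ∀ b ∈ A', ∀ l l', f l = t → f l' = t →
          ((∃ c, δ c a ≤ l ∧ δ c b ≤ l') ↔ ∃ c, δ c (σ a) ≤ l ∧ δ c (σ b) ≤ l')) →
        ∃ g ∈ B, ∀ a ∈ A', g (i a) = i (σ a)

/-- `g` is a compatible family of group elements over the elements between `s` and `t`. -/
def CompatB (S : ∀ t, Sp f lo t) (B : ∀ t, Subgroup (Equiv.Perm (S t).X))
    (J : ∀ t r, (S r).X → (S t).X) (s t : K) (g : ∀ r, Equiv.Perm (S r).X) : Prop :=
  ∀ r, s ≤ r → r < t → g r ∈ B r ∧ ∀ q, s ≤ q → q ≤ r → ∀ a, g r (J r q a) = J r q (g q a)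

/-- The conditions on the maps into the space over `t`. -/
structure Good3 (S : ∀ t, Sp f lo t) (B : ∀ t, Subgroup (Equiv.Perm (S t).X)) (t : K)
    (J : ∀ t r, (S r).X → (S t).X) : Prop where
  refl : ∀ a, J t t a = a
  comp : ∀ q r, q ≤ r → r ≤ t → ∀ a, J t r (J r q a) = J t q a
  isom : ∀ r, r ≤ t → ∀ a a', (S t).d (J t r a) (J t r a') = (S r).d a a' ⊔ lo t
  interp : ∀ r r', r ≤ t → r' ≤ t → ∀ (a : (S r).X) (a' : (S r').X) l, f l = t →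
    (S t).d (J t r a) (J t r' a') ≤ l →
    ∃ e : (S (r ⊓ r')).X, (S t).d (J t r a) (J t (r ⊓ r') e) ≤ l ∧
      (S t).d (J t (r ⊓ r') e) (J t r' a') ≤ l
  gate : ∀ r r', r ≤ t → r' ≤ t → ∀ (x : (S t).X) (a : (S r).X) (a' : (S r').X) l l',
    f l = t → f l' = t → (S t).d x (J t r a) ≤ l → (S t).d x (J t r' a') ≤ l' →
    (∃ c : (S r).X, (S t).d x (J t r c) ≤ l ⊓ l') ∨
      ∃ c : (S r').X, (S t).d x (J t r' c) ≤ l ⊓ l'
  ext : ∀ s g, CompatB S B J s t g → ∃ γ ∈ B t, ∀ r, s ≤ r → r < t → ∀ a,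
    γ (J t r a) = J t r (g r a)

theorem Good3.local {S : ∀ t, Sp f lo t} {B : ∀ t, Subgroup (Equiv.Perm (S t).X)} {t : K}
    {J J' : ∀ t r, (S r).X → (S t).X} (h : ∀ r, r ≤ t → J r = J' r) (hg : Good3 S B t J) :
    Good3 S B t J' := by
  constructor
  · intro a
    rw [← h t le_rfl]; exact hg.refl a
  · intro q r hqr hrt a
    rw [← h t le_rfl, ← h r hrt]; exact hg.comp q r hqr hrt a
  · intro r hrt a a'
    rw [← h t le_rfl]; exact hg.isom r hrt a a'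
  · rw [← h t le_rfl]; exact hg.interp
  · rw [← h t le_rfl]; exact hg.gate
  · intro s g hc
    rw [← h t le_rfl]
    refine hg.ext s g ?_
    intro r hr1 hr2
    refine ⟨(hc r hr1 hr2).1, fun q hq1 hq2 a => ?_⟩
    rw [h r hr2.le]
    exact (hc r hr1 hr2).2 q hq1 hq2 a

/-- One step of the construction of the maps. -/
theorem exists_step3 [Finite L] [Finite K] {S : ∀ t, Sp f lo t}
    {B : ∀ t, Subgroup (Equiv.Perm (S t).X)} {J : ∀ t r, (S r).X → (S t).X}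
    (hB : ∀ s, ∀ g ∈ B s, ∀ a b, (S s).d (g a) (g b) = (S s).d a b)
    (hlo : ∀ k l, k ≤ f l → lo k ≤ l) (hflo : ∀ k, f (lo k) = k) (hfhi : ∀ k, f (hi k) = k)
    (hhi : ∀ l, l ≤ hi (f l)) {t : K} (hJ : ∀ r, r < t → Good3 S B r J)
    (hU : LevOK (S t) (B t) (Nat.card (Σ r : {r : K // r < t}, (S r.1).X))) :
    ∃ J' : ∀ t r, (S r).X → (S t).X, (∀ r, r ≠ t → J' r = J r) ∧ Good3 S B t J' := by
  classical
  have hlot : ∀ k l, k ≤ f l → lo k ≤ l := hlo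
  let A : Type := Σ r : {r : K // r < t}, (S r.1).X
  have hAfin : Finite A := by
    have : ∀ r : {r : K // r < t}, Finite (S r.1).X := fun r => (S r.1).fin
    exact inferInstanceAs (Finite (Σ r : {r : K // r < t}, (S r.1).X))
  let R : L → A → A → Prop := fun l x y => ∃ e : (S (x.1.1 ⊓ y.1.1)).X,
    (S x.1.1).d x.2 (J x.1.1 (x.1.1 ⊓ y.1.1) e) ≤ l ∧
      (S y.1.1).d (J y.1.1 (x.1.1 ⊓ y.1.1) e) y.2 ≤ l
  -- going down to the fibre over `r`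
  have down : ∀ r, r ≤ t → ∀ (a b : (S r).X) l, f l = t → (S r).d a b ≤ l →
      (S r).d a b ≤ l ⊓ hi r ∧ f (l ⊓ hi r) = r := by
    intro r hr a b l hl h
    refine ⟨le_inf h ?_, ?_⟩
    · have := hhi ((S r).d a b)
      rwa [(S r).fd] at this
    · rw [map_inf, hl, hfhi, inf_eq_right.2 hr]
  have hRmono : ∀ l l' x y, l ≤ l' → R l x y → R l' x y := by
    rintro l l' x y h ⟨e, h1, h2⟩
    exact ⟨e, h1.trans h, h2.trans h⟩
  -- a point of a lower space is an interpolant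
  have hRof : ∀ (x y : A) (q : K) (hqx : q ≤ x.1.1) (hqy : q ≤ y.1.1) (e : (S q).X) l,
      (S x.1.1).d x.2 (J x.1.1 q e) ≤ l → (S y.1.1).d (J y.1.1 q e) y.2 ≤ l → R l x y := by
    intro x y q hqx hqy e l h1 h2
    have hq : q ≤ x.1.1 ⊓ y.1.1 := le_inf hqx hqy
    refine ⟨J (x.1.1 ⊓ y.1.1) q e, ?_, ?_⟩
    · rw [(hJ _ x.1.2).comp _ _ hq inf_le_left]; exact h1
    · rw [(hJ _ y.1.2).comp _ _ hq inf_le_right]; exact h2
  have hRsymm : ∀ l x y, R l x y → R l y x := by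
    rintro l x y ⟨e, h1, h2⟩
    refine hRof y x _ inf_le_right inf_le_left e l ?_ ?_
    · rw [(S _).symm]; exact h2
    · rw [(S _).symm]; exact h1
  have hRinf : ∀ l l' x y, f l = t → f l' = t → R l x y → R l' x y → R (l ⊓ l') x y := by
    rintro l l' x y hl hl' ⟨e1, h1, h2⟩ ⟨e2, h3, h4⟩
    have hll : f (l ⊓ l') = t := by rw [map_inf, hl, hl', inf_idem]
    obtain ⟨ε, hε⟩ : ∃ ε : (S (x.1.1 ⊓ y.1.1)).X,
        (S x.1.1).d x.2 (J x.1.1 (x.1.1 ⊓ y.1.1) ε) ≤ l ⊓ l' := by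
      obtain ⟨a1, a2⟩ := down _ x.1.2.le _ _ l hl h1
      obtain ⟨a3, a4⟩ := down _ x.1.2.le _ _ l' hl' h3
      have hle : (l ⊓ hi x.1.1) ⊓ (l' ⊓ hi x.1.1) ≤ l ⊓ l' := inf_le_inf inf_le_left inf_le_left
      rcases (hJ _ x.1.2).gate _ _ inf_le_left inf_le_left x.2 e1 e2 _ _ a2 a4 a1 a3 with
        ⟨c, hc⟩ | ⟨c, hc⟩
      · exact ⟨c, hc.trans hle⟩
      · exact ⟨c, hc.trans hle⟩
    obtain ⟨ε', hε'⟩ : ∃ ε : (S (x.1.1 ⊓ y.1.1)).X,
        (S y.1.1).d y.2 (J y.1.1 (x.1.1 ⊓ y.1.1) ε) ≤ l ⊓ l' := by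
      rw [(S _).symm] at h2 h4
      obtain ⟨a1, a2⟩ := down _ y.1.2.le _ _ l hl h2
      obtain ⟨a3, a4⟩ := down _ y.1.2.le _ _ l' hl' h4
      have hle : (l ⊓ hi y.1.1) ⊓ (l' ⊓ hi y.1.1) ≤ l ⊓ l' := inf_le_inf inf_le_left inf_le_left
      rcases (hJ _ y.1.2).gate _ _ inf_le_right inf_le_right y.2 e1 e2 _ _ a2 a4 a1 a3 with
        ⟨c, hc⟩ | ⟨c, hc⟩
      · exact ⟨c, hc.trans hle⟩
      · exact ⟨c, hc.trans hle⟩
    have key : ∀ (e : (S (x.1.1 ⊓ y.1.1)).X) m, l ⊓ l' ≤ m →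
        (S x.1.1).d x.2 (J x.1.1 (x.1.1 ⊓ y.1.1) e) ≤ m →
        (S y.1.1).d (J y.1.1 (x.1.1 ⊓ y.1.1) e) y.2 ≤ m →
        (S (x.1.1 ⊓ y.1.1)).d ε ε' ≤ m := by
      intro e m hm h5 h6
      refine ((S _).tri ε e ε').trans (sup_le ?_ ?_)
      · have h7 := (S x.1.1).tri (J x.1.1 (x.1.1 ⊓ y.1.1) ε) x.2 (J x.1.1 (x.1.1 ⊓ y.1.1) e)
        rw [(hJ _ x.1.2).isom _ inf_le_left] at h7
        refine le_sup_left.trans (h7.trans (sup_le ?_ h5))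
        rw [(S _).symm]
        exact hε.trans hm
      · have h7 := (S y.1.1).tri (J y.1.1 (x.1.1 ⊓ y.1.1) e) y.2 (J y.1.1 (x.1.1 ⊓ y.1.1) ε')
        rw [(hJ _ y.1.2).isom _ inf_le_right] at h7
        exact le_sup_left.trans (h7.trans (sup_le h6 (hε'.trans hm)))
    have hεε : (S (x.1.1 ⊓ y.1.1)).d ε ε' ≤ l ⊓ l' :=
      le_inf (key e1 l inf_le_left h1 h2) (key e2 l' inf_le_right h3 h4)
    refine ⟨ε, hε, ?_⟩
    refine ((S y.1.1).tri _ (J y.1.1 (x.1.1 ⊓ y.1.1) ε') _).trans (sup_le ?_ ?_)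
    · rw [(hJ _ y.1.2).isom _ inf_le_right]
      exact sup_le hεε (hlo _ _ (by rw [hll]; exact y.1.2.le))
    · rw [(S _).symm]; exact hε'
  have hRtrans : ∀ l x y z, f l = t → R l x y → R l y z → R l x z := by
    rintro l x y z hl ⟨e, h1, h2⟩ ⟨e', h3, h4⟩
    have h5 := ((S y.1.1).tri (J y.1.1 (x.1.1 ⊓ y.1.1) e) y.2
      (J y.1.1 (y.1.1 ⊓ z.1.1) e')).trans (sup_le h2 h3)
    obtain ⟨h6, h7⟩ := down _ y.1.2.le _ _ l hl h5
    obtain ⟨g, hg1, hg2⟩ := (hJ _ y.1.2).interp _ _ inf_le_right inf_le_left e e' _ h7 h6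
    have hgx : (x.1.1 ⊓ y.1.1) ⊓ (y.1.1 ⊓ z.1.1) ≤ x.1.1 := inf_le_left.trans inf_le_left
    have hgz : (x.1.1 ⊓ y.1.1) ⊓ (y.1.1 ⊓ z.1.1) ≤ z.1.1 := inf_le_right.trans inf_le_right
    have hlx : lo x.1.1 ≤ l := hlo _ _ (by rw [hl]; exact x.1.2.le)
    have hlz : lo z.1.1 ≤ l := hlo _ _ (by rw [hl]; exact z.1.2.le)
    refine hRof x z _ hgx hgz g l ?_ ?_
    · refine ((S x.1.1).tri _ (J x.1.1 (x.1.1 ⊓ y.1.1) e) _).trans (sup_le h1 ?_)
      rw [← (hJ _ x.1.2).comp _ _ inf_le_left inf_le_left, (hJ _ x.1.2).isom _ inf_le_left]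
      refine sup_le ?_ hlx
      rw [← (hJ _ y.1.2).comp _ _ inf_le_left inf_le_right, (hJ _ y.1.2).isom _ inf_le_right] at hg1
      exact le_sup_left.trans (hg1.trans inf_le_left)
    · refine ((S z.1.1).tri _ (J z.1.1 (y.1.1 ⊓ z.1.1) e') _).trans (sup_le ?_ h4)
      rw [← (hJ _ z.1.2).comp _ _ inf_le_right inf_le_right, (hJ _ z.1.2).isom _ inf_le_right]
      refine sup_le ?_ hlz
      rw [← (hJ _ y.1.2).comp _ _ inf_le_right inf_le_left, (hJ _ y.1.2).isom _ inf_le_left] at hg2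
      exact le_sup_left.trans (hg2.trans inf_le_left)
  have hex : ∀ x y : A, ∃ D : L, f D = t ∧ R D x y ∧ ∀ l, f l = t → R l x y → D ≤ l := by
    intro x y
    have hne : {l : L | f l = t ∧ R l x y}.Nonempty := by
      obtain ⟨e⟩ := (S (x.1.1 ⊓ y.1.1)).ne
      refine ⟨(S x.1.1).d x.2 (J x.1.1 (x.1.1 ⊓ y.1.1) e) ⊔
        (S y.1.1).d (J y.1.1 (x.1.1 ⊓ y.1.1) e) y.2 ⊔ lo t, ?_, e, ?_, ?_⟩
      · rw [map_sup, map_sup, (S _).fd, (S _).fd, hflo]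
        exact sup_eq_right.2 (sup_le x.1.2.le y.1.2.le)
      · exact le_sup_left.trans le_sup_left
      · exact le_sup_right.trans le_sup_left
    obtain ⟨D, hD, hmin⟩ := (Set.toFinite {l : L | f l = t ∧ R l x y}).exists_minimal hne
    refine ⟨D, hD.1, hD.2, fun l hl hR => ?_⟩
    have h1 : D ⊓ l ∈ {l : L | f l = t ∧ R l x y} :=
      ⟨by rw [map_inf, hD.1, hl, inf_idem], hRinf _ _ _ _ hD.1 hl hD.2 hR⟩
    exact (hmin h1 inf_le_left).trans inf_le_right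
  choose δ hδf hδR hδle using hex
  have hiff : ∀ x y l, f l = t → (δ x y ≤ l ↔ R l x y) := fun x y l hl =>
    ⟨fun h => hRmono _ _ _ _ h (hδR x y), fun h => hδle x y l hl h⟩
  have hsymm : ∀ x y, δ x y = δ y x := fun x y =>
    le_antisymm (hδle _ _ _ (hδf _ _) (hRsymm _ _ _ (hδR y x)))
      (hδle _ _ _ (hδf _ _) (hRsymm _ _ _ (hδR x y)))
  have htri : ∀ x y z, δ x z ≤ δ x y ⊔ δ y z := by
    intro x y z
    have hf : f (δ x y ⊔ δ y z) = t := by rw [map_sup, hδf, hδf, sup_idem]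
    exact hδle _ _ _ hf (hRtrans _ _ _ _ hf (hRmono _ _ _ _ le_sup_left (hδR x y))
      (hRmono _ _ _ _ le_sup_right (hδR y z)))
  have hcomp0 : ∀ (q r : K) (hq : q < t) (hr : r < t), q ≤ r → ∀ a : (S q).X,
      δ ⟨⟨r, hr⟩, J r q a⟩ ⟨⟨q, hq⟩, a⟩ = lo t := by
    intro q r hq hr hqr a
    refine le_antisymm (hδle _ _ _ (hflo t) ?_) (hlo _ _ (hδf _ _).ge)
    refine hRof ⟨⟨r, hr⟩, J r q a⟩ ⟨⟨q, hq⟩, a⟩ q hqr le_rfl a _ ?_ ?_
    · show (S r).d (J r q a) (J r q a) ≤ lo t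
      rw [((S r).self _ _).2 rfl]
      exact hlo _ _ (by rw [hflo]; exact hr.le)
    · show (S q).d (J q q a) a ≤ lo t
      rw [(hJ q hq).refl, ((S q).self _ _).2 rfl]
      exact hlo _ _ (by rw [hflo]; exact hq.le)
  have hself : ∀ x, δ x x = lo t := by
    rintro ⟨⟨r, hr⟩, a⟩
    have := hcomp0 r r hr hr le_rfl a
    rwa [(hJ r hr).refl] at this
  have hown : ∀ (r : K) (hr : r < t) (a a' : (S r).X),
      δ ⟨⟨r, hr⟩, a⟩ ⟨⟨r, hr⟩, a'⟩ = (S r).d a a' ⊔ lo t := by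
    intro r hr a a'
    apply le_antisymm
    · refine hδle _ _ _ ?_ ?_
      · rw [map_sup, (S r).fd, hflo]
        exact sup_eq_right.2 hr.le
      · refine hRof ⟨⟨r, hr⟩, a⟩ ⟨⟨r, hr⟩, a'⟩ r le_rfl le_rfl a _ ?_ ?_
        · show (S r).d a (J r r a) ≤ _
          rw [(hJ r hr).refl, ((S r).self _ _).2 rfl]
          exact (hlo _ _ (by rw [hflo]; exact hr.le)).trans le_sup_right
        · show (S r).d (J r r a) a' ≤ _
          rw [(hJ r hr).refl]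
          exact le_sup_left
    · refine sup_le ?_ (hlo _ _ (hδf _ _).ge)
      obtain ⟨e, h1, h2⟩ := hδR ⟨⟨r, hr⟩, a⟩ ⟨⟨r, hr⟩, a'⟩
      exact ((S r).tri _ _ _).trans (sup_le h1 h2)
  obtain ⟨ι, hι, hgate, hextι⟩ := hU A le_rfl δ hδf hself hsymm htri
  have hne : Nonempty (S t).X := (S t).ne
  let new : ∀ r, (S r).X → (S t).X := fun r a =>
    if h : r < t then ι ⟨⟨r, h⟩, a⟩ else if h' : r = t then h' ▸ a else Classical.arbitrary _
  have new_lt : ∀ r (h : r < t) a, new r a = ι ⟨⟨r, h⟩, a⟩ := fun r h a => dif_pos h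
  have new_self : ∀ a, new t a = a := by
    intro a
    show (if h : t < t then ι ⟨⟨t, h⟩, a⟩ else if h' : t = t then h' ▸ a
      else Classical.arbitrary _) = a
    rw [dif_neg (lt_irrefl t), dif_pos rfl]
  let J' : ∀ t r, (S r).X → (S t).X := Function.update J t new
  have hJt : J' t = new := Function.update_self _ _ _
  have hJr : ∀ r, r ≠ t → J' r = J r := fun r h => Function.update_of_ne h _ _
  have hcomp : ∀ q r, q ≤ r → r ≤ t → ∀ a, J' t r (J' r q a) = J' t q a := by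
    intro q r hqr hrt a
    rcases eq_or_lt_of_le hrt with rfl | hr
    · rw [hJt, new_self]
    · have hq : q < t := hqr.trans_lt hr
      rw [hJt, hJr r hr.ne, new_lt r hr, new_lt q hq]
      apply ((S t).self _ _).1
      rw [hι]
      exact hcomp0 q r hq hr hqr a
  have hisom : ∀ r, r ≤ t → ∀ a a', (S t).d (J' t r a) (J' t r a') = (S r).d a a' ⊔ lo t := by
    intro r hrt a a'
    rcases eq_or_lt_of_le hrt with rfl | hr
    · rw [hJt, new_self, new_self]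
      exact (sup_eq_left.2 (hlo _ _ ((S _).fd _ _).ge)).symm
    · rw [hJt, new_lt r hr, new_lt r hr, hι]
      exact hown r hr a a'
  refine ⟨J', hJr, ⟨fun a => by rw [hJt]; exact new_self a, hcomp, hisom, ?_, ?_, ?_⟩⟩
  · -- interpolation
    intro r r' hr hr' a a' l hl h
    rcases eq_or_lt_of_le hr with hreq | hrlt
    · subst hreq
      have hle : r' ≤ r ⊓ r' := le_inf hr' le_rfl
      refine ⟨J' (r ⊓ r') r' a', ?_, ?_⟩
      · rw [hcomp _ _ hle inf_le_left]; exact h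
      · rw [hcomp _ _ hle inf_le_left, ((S _).self _ _).2 rfl]
        exact hlo _ _ hl.ge
    rcases eq_or_lt_of_le hr' with hreq | hrlt'
    · subst hreq
      have hle : r ≤ r ⊓ r' := le_inf le_rfl hr
      refine ⟨J' (r ⊓ r') r a, ?_, ?_⟩
      · rw [hcomp _ _ hle inf_le_right, ((S _).self _ _).2 rfl]
        exact hlo _ _ hl.ge
      · rw [hcomp _ _ hle inf_le_right]; exact h
    · rw [hJt, new_lt r hrlt, new_lt r' hrlt', hι] at h
      obtain ⟨e, h1, h2⟩ := (hiff _ _ l hl).1 h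
      have hlt : lo t ≤ l := hlo _ _ hl.ge
      refine ⟨e, ?_, ?_⟩
      · rw [← hcomp _ _ inf_le_left hr, hisom r hr, hJr r hrlt.ne]
        exact sup_le h1 hlt
      · rw [← hcomp _ _ inf_le_right hr', hisom r' hr', hJr r' hrlt'.ne]
        exact sup_le h2 hlt
  · -- gates
    intro r r' hr hr' x a a' l l' hl hl' h h'
    have hll : f (l ⊓ l') = t := by rw [map_inf, hl, hl', inf_idem]
    rcases eq_or_lt_of_le hr with hreq | hrlt
    · subst hreq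
      refine Or.inl ⟨x, ?_⟩
      rw [hJt, new_self, ((S _).self _ _).2 rfl]
      exact hlo _ _ hll.ge
    rcases eq_or_lt_of_le hr' with hreq | hrlt'
    · subst hreq
      refine Or.inr ⟨x, ?_⟩
      rw [hJt, new_self, ((S _).self _ _).2 rfl]
      exact hlo _ _ hll.ge
    rw [hJt, new_lt r hrlt] at h
    rw [hJt, new_lt r' hrlt'] at h'
    obtain ⟨⟨⟨ρ, hρ⟩, γ⟩, hc⟩ := hgate x _ _ l l' hl hl' h h'
    have h1 : δ ⟨⟨ρ, hρ⟩, γ⟩ ⟨⟨r, hrlt⟩, a⟩ ≤ l := by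
      rw [← hι]
      refine ((S t).tri _ x _).trans (sup_le ?_ h)
      rw [(S t).symm]; exact hc.trans inf_le_left
    have h2 : δ ⟨⟨ρ, hρ⟩, γ⟩ ⟨⟨r', hrlt'⟩, a'⟩ ≤ l' := by
      rw [← hι]
      refine ((S t).tri _ x _).trans (sup_le ?_ h')
      rw [(S t).symm]; exact hc.trans inf_le_right
    obtain ⟨e1, h3, -⟩ := (hiff _ _ l hl).1 h1
    obtain ⟨e2, h4, -⟩ := (hiff _ _ l' hl').1 h2
    obtain ⟨a1, a2⟩ := down _ hρ.le _ _ l hl h3
    obtain ⟨a3, a4⟩ := down _ hρ.le _ _ l' hl' h4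
    have hle : (l ⊓ hi ρ) ⊓ (l' ⊓ hi ρ) ≤ l ⊓ l' := inf_le_inf inf_le_left inf_le_left
    have hlt : lo t ≤ l ⊓ l' := hlo _ _ hll.ge
    rcases (hJ _ hρ).gate _ _ inf_le_left inf_le_left γ e1 e2 _ _ a2 a4 a1 a3 with
      ⟨c, hc'⟩ | ⟨c, hc'⟩
    · refine Or.inl ⟨J' r (ρ ⊓ r) c, ?_⟩
      rw [hcomp _ _ inf_le_right hr]
      refine ((S t).tri x (ι ⟨⟨ρ, hρ⟩, γ⟩) _).trans (sup_le hc ?_)
      rw [← hcomp _ _ inf_le_left hρ.le, ← new_lt ρ hρ, ← hJt, hisom ρ hρ.le, hJr ρ hρ.ne]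
      exact sup_le (hc'.trans hle) hlt
    · refine Or.inr ⟨J' r' (ρ ⊓ r') c, ?_⟩
      rw [hcomp _ _ inf_le_right hr']
      refine ((S t).tri x (ι ⟨⟨ρ, hρ⟩, γ⟩) _).trans (sup_le hc ?_)
      rw [← hcomp _ _ inf_le_left hρ.le, ← new_lt ρ hρ, ← hJt, hisom ρ hρ.le, hJr ρ hρ.ne]
      exact sup_le (hc'.trans hle) hlt
  · -- extension
    intro s g hg
    have hg' : ∀ r, s ≤ r → r < t → g r ∈ B r ∧
        ∀ q, s ≤ q → q ≤ r → ∀ a, g r (J r q a) = J r q (g q a) := by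
      intro r hr1 hr2
      refine ⟨(hg r hr1 hr2).1, fun q hq1 hq2 a => ?_⟩
      have h1 := (hg r hr1 hr2).2 q hq1 hq2 a
      rwa [hJr r hr2.ne] at h1
    let A' : Set A := {x | s ≤ x.1.1}
    let σ : A → A := fun x => ⟨x.1, g x.1.1 x.2⟩
    have hRσ : ∀ l (x y : A), s ≤ x.1.1 → s ≤ y.1.1 → (R l (σ x) (σ y) ↔ R l x y) := by
      intro l x y hx hy
      have hm : s ≤ x.1.1 ⊓ y.1.1 := le_inf hx hy
      have e1 : ∀ e, (S x.1.1).d (g x.1.1 x.2) (J x.1.1 (x.1.1 ⊓ y.1.1) (g _ e)) =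
          (S x.1.1).d x.2 (J x.1.1 (x.1.1 ⊓ y.1.1) e) := by
        intro e
        rw [← (hg' _ hx x.1.2).2 _ hm inf_le_left, hB _ _ (hg' _ hx x.1.2).1]
      have e2 : ∀ e, (S y.1.1).d (J y.1.1 (x.1.1 ⊓ y.1.1) (g _ e)) (g y.1.1 y.2) =
          (S y.1.1).d (J y.1.1 (x.1.1 ⊓ y.1.1) e) y.2 := by
        intro e
        rw [← (hg' _ hy y.1.2).2 _ hm inf_le_right, hB _ _ (hg' _ hy y.1.2).1]
      constructor
      · rintro ⟨e, h1, h2⟩
        obtain ⟨e', rfl⟩ := (g (x.1.1 ⊓ y.1.1)).surjective e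
        exact ⟨e', (e1 e').symm.le.trans h1, (e2 e').symm.le.trans h2⟩
      · rintro ⟨e, h1, h2⟩
        exact ⟨g _ e, (e1 e).le.trans h1, (e2 e).le.trans h2⟩
    have hδσ : ∀ x y : A, s ≤ x.1.1 → s ≤ y.1.1 → δ (σ x) (σ y) = δ x y := by
      intro x y hx hy
      apply le_antisymm
      · exact hδle _ _ _ (hδf _ _) ((hRσ _ _ _ hx hy).2 (hδR x y))
      · exact hδle _ _ _ (hδf _ _) ((hRσ _ _ _ hx hy).1 (hδR (σ x) (σ y)))
    -- an incidence between points above `s` is witnessed above `s`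
    have hinc : ∀ (c x y : A) l l', s ≤ x.1.1 → s ≤ y.1.1 → f l = t → f l' = t → δ c x ≤ l →
        δ c y ≤ l' → ∃ c' : A, s ≤ c'.1.1 ∧ δ c' x ≤ l ∧ δ c' y ≤ l' := by
      rintro ⟨⟨ρ, hρ⟩, γ⟩ x y l l' hx hy hl hl' h1 h2
      obtain ⟨e1, h3, -⟩ := (hiff _ _ l hl).1 h1
      obtain ⟨e2, h4, -⟩ := (hiff _ _ l' hl').1 h2
      obtain ⟨a1, a2⟩ := down _ hρ.le _ _ l hl h3
      obtain ⟨a3, a4⟩ := down _ hρ.le _ _ l' hl' h4
      have hll : f (l ⊓ l') = t := by rw [map_inf, hl, hl', inf_idem]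
      have hle : (l ⊓ hi ρ) ⊓ (l' ⊓ hi ρ) ≤ l ⊓ l' := inf_le_inf inf_le_left inf_le_left
      rcases (hJ _ hρ).gate _ _ inf_le_left inf_le_left γ e1 e2 _ _ a2 a4 a1 a3 with
        ⟨c, hc'⟩ | ⟨c, hc'⟩
      · have h5 : δ ⟨x.1, J x.1.1 (ρ ⊓ x.1.1) c⟩ ⟨⟨ρ, hρ⟩, γ⟩ ≤ l ⊓ l' := by
          refine hδle _ _ _ hll (hRof ⟨x.1, J x.1.1 (ρ ⊓ x.1.1) c⟩ ⟨⟨ρ, hρ⟩, γ⟩ (ρ ⊓ x.1.1)
            inf_le_right inf_le_left c _ ?_ ?_)
          · show (S x.1.1).d _ _ ≤ _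
            rw [((S _).self _ _).2 rfl]
            exact hlo _ _ (by rw [hll]; exact x.1.2.le)
          · show (S ρ).d (J ρ (ρ ⊓ x.1.1) c) γ ≤ _
            rw [(S ρ).symm]
            exact hc'.trans hle
        exact ⟨⟨x.1, J x.1.1 (ρ ⊓ x.1.1) c⟩, hx,
          (htri _ _ _).trans (sup_le (h5.trans inf_le_left) h1),
          (htri _ _ _).trans (sup_le (h5.trans inf_le_right) h2)⟩
      · have h5 : δ ⟨y.1, J y.1.1 (ρ ⊓ y.1.1) c⟩ ⟨⟨ρ, hρ⟩, γ⟩ ≤ l ⊓ l' := by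
          refine hδle _ _ _ hll (hRof ⟨y.1, J y.1.1 (ρ ⊓ y.1.1) c⟩ ⟨⟨ρ, hρ⟩, γ⟩ (ρ ⊓ y.1.1)
            inf_le_right inf_le_left c _ ?_ ?_)
          · show (S y.1.1).d _ _ ≤ _
            rw [((S _).self _ _).2 rfl]
            exact hlo _ _ (by rw [hll]; exact y.1.2.le)
          · show (S ρ).d (J ρ (ρ ⊓ y.1.1) c) γ ≤ _
            rw [(S ρ).symm]
            exact hc'.trans hle
        exact ⟨⟨y.1, J y.1.1 (ρ ⊓ y.1.1) c⟩, hy,
          (htri _ _ _).trans (sup_le (h5.trans inf_le_left) h1),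
          (htri _ _ _).trans (sup_le (h5.trans inf_le_right) h2)⟩
    obtain ⟨γ, hγB, hγ⟩ := hextι A' σ (fun x hx y hy => hδσ x y hx hy) (by
      intro x hx y hy l l' hl hl'
      constructor
      · rintro ⟨c, h1, h2⟩
        obtain ⟨c', h3, h4, h5⟩ := hinc c x y l l' hx hy hl hl' h1 h2
        exact ⟨σ c', (hδσ _ _ h3 hx).le.trans h4, (hδσ _ _ h3 hy).le.trans h5⟩
      · rintro ⟨c, h1, h2⟩
        obtain ⟨c', h3, h4, h5⟩ := hinc c (σ x) (σ y) l l' hx hy hl hl' h1 h2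
        obtain ⟨b, hb⟩ := (g c'.1.1).surjective c'.2
        have h6 : σ ⟨c'.1, b⟩ = c' := Sigma.ext rfl (heq_of_eq hb)
        refine ⟨⟨c'.1, b⟩, ?_, ?_⟩
        · rw [← hδσ ⟨c'.1, b⟩ x h3 hx, h6]; exact h4
        · rw [← hδσ ⟨c'.1, b⟩ y h3 hy, h6]; exact h5)
    refine ⟨γ, hγB, fun r hsr hrt a => ?_⟩
    rw [hJt, new_lt r hrt, new_lt r hrt]
    exact hγ ⟨⟨r, hrt⟩, a⟩ hsr

end Vale.Agent.P183.H330G
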