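import Mathlib.LinearAlgebra.Matrix.ToLin
import Mathlib.LinearAlgebra.Matrix.DotProduct
import Mathlib.LinearAlgebra.FiniteDimensional.Lemmas
import Mathlib.LinearAlgebra.Dual.Lemmas
import Mathlib.LinearAlgebra.Basis.VectorSpace
import Mathlib.Data.ZMod.Basic
import Mathlib.FieldTheory.Finiteness
import Mathlib.Algebra.Field.ZMod

/-!
Linear algebra over the field with two elements: extension of partial isomorphisms of
configurations of vectors and functionals.
-/

namespace Vale.Agent.P183.H330G

open Matrix Module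

variable {ι : Type} [Fintype ι] [DecidableEq ι]

/-- Evaluation at a family of functionals. -/
def ev {J : Type} (w : J → ι → ZMod 2) : (ι → ZMod 2) →ₗ[ZMod 2] (J → ZMod 2) where
  toFun x := fun j => x ⬝ᵥ w j
  map_add' x y := by
    funext j
    exact add_dotProduct x y (w j)
  map_smul' c x := by
    funext j
    exact smul_dotProduct c x (w j)

omit [DecidableEq ι] in
theorem ev_apply {J : Type} (w : J → ι → ZMod 2) (x : ι → ZMod 2) (j : J) :
    ev w x j = x ⬝ᵥ w j := rfl

theorem ev_surj {J : Type} [Fintype J] [DecidableEq J] (w : J → ι → ZMod 2)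
    (hw : LinearIndependent (ZMod 2) w) : Function.Surjective (ev w) := by
  rw [← LinearMap.range_eq_top]
  by_contra hne
  obtain ⟨φ, hφ0, hφ⟩ := Submodule.exists_le_ker_of_lt_top _ (lt_top_iff_ne_top.2 hne)
  apply hφ0
  have h1 : ∀ y : J → ZMod 2, φ y = ∑ j, y j * φ (Pi.single j 1) := by
    intro y
    conv_lhs => rw [pi_eq_sum_univ' y]
    rw [map_sum]
    refine Finset.sum_congr rfl fun j _ => ?_
    rw [map_smul, smul_eq_mul]
  have h2 : ∀ x : ι → ZMod 2, x ⬝ᵥ (∑ j, φ (Pi.single j 1) • w j) = 0 := by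
    intro x
    have h3 : φ (ev w x) = 0 := hφ ⟨x, rfl⟩
    rw [h1] at h3
    rw [dotProduct_sum, ← h3]
    refine Finset.sum_congr rfl fun j _ => ?_
    rw [dotProduct_smul, ev_apply, smul_eq_mul, mul_comm]
  have h3 : ∑ j, φ (Pi.single j 1) • w j = 0 := by
    funext i
    have := h2 (Pi.single i 1)
    rw [single_one_dotProduct] at this
    exact this
  have h4 := Fintype.linearIndependent_iff.1 hw _ h3
  refine LinearMap.ext fun y => ?_
  rw [h1]
  simp [h4]

omit [Fintype ι] [DecidableEq ι] in
/-- The linear combination map. -/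
theorem lc_inj {I : Type} [Fintype I] (v : I → ι → ZMod 2) (hv : LinearIndependent (ZMod 2) v) :
    Function.Injective (Fintype.linearCombination (ZMod 2) v) :=
  linearIndependent_iff_injective_fintypeLinearCombination.1 hv

omit [DecidableEq ι] in
theorem gram_comp {I J : Type} [Fintype I] (v v' : I → ι → ZMod 2) (w w' : J → ι → ZMod 2)
    (hG : ∀ i j, v i ⬝ᵥ w j = v' i ⬝ᵥ w' j) :
    (ev w).comp (Fintype.linearCombination (ZMod 2) v) =
      (ev w').comp (Fintype.linearCombination (ZMod 2) v') := by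
  refine LinearMap.ext fun c => ?_
  funext j
  show (Fintype.linearCombination (ZMod 2) v c) ⬝ᵥ w j =
    (Fintype.linearCombination (ZMod 2) v' c) ⬝ᵥ w' j
  rw [Fintype.linearCombination_apply, Fintype.linearCombination_apply, sum_dotProduct,
    sum_dotProduct]
  refine Finset.sum_congr rfl fun i _ => ?_
  rw [smul_dotProduct, smul_dotProduct, hG]

theorem finrank_ker_ev {J : Type} [Fintype J] [DecidableEq J] (w : J → ι → ZMod 2)
    (hw : LinearIndependent (ZMod 2) w) :
    Fintype.card J + finrank (ZMod 2) (LinearMap.ker (ev w)) = Fintype.card ι := by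
  have h1 := LinearMap.finrank_range_add_finrank_ker (ev w)
  rw [LinearMap.range_eq_top.2 (ev_surj w hw), finrank_top, finrank_fintype_fun_eq_card,
    finrank_fintype_fun_eq_card] at h1
  exact h1

omit [DecidableEq ι] in
theorem finrank_ker_inf {I J : Type} [Fintype I] (v : I → ι → ZMod 2) (w : J → ι → ZMod 2)
    (hv : LinearIndependent (ZMod 2) v) :
    finrank (ZMod 2) ((LinearMap.ker (ev w) ⊓ Submodule.span (ZMod 2) (Set.range v) :
      Submodule (ZMod 2) (ι → ZMod 2))) =
      finrank (ZMod 2) (LinearMap.ker ((ev w).comp (Fintype.linearCombination (ZMod 2) v))) := by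
  have h1 : (LinearMap.ker ((ev w).comp (Fintype.linearCombination (ZMod 2) v))).map
      (Fintype.linearCombination (ZMod 2) v) =
      LinearMap.ker (ev w) ⊓ Submodule.span (ZMod 2) (Set.range v) := by
    rw [LinearMap.ker_comp, Submodule.map_comap_eq, Fintype.range_linearCombination, inf_comm]
  rw [← h1]
  exact (LinearEquiv.finrank_eq (Submodule.equivMapOfInjective _ (lc_inj v hv) _)).symm

/-- One step of the extension. -/
theorem witt_step {I J : Type} [Fintype I] [Fintype J] [DecidableEq J]
    (v v' : I → ι → ZMod 2) (w w' : J → ι → ZMod 2)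
    (hv : LinearIndependent (ZMod 2) v) (hv' : LinearIndependent (ZMod 2) v')
    (hw : LinearIndependent (ZMod 2) w) (hw' : LinearIndependent (ZMod 2) w')
    (hG : ∀ i j, v i ⬝ᵥ w j = v' i ⬝ᵥ w' j) (hcard : Fintype.card I < Fintype.card ι) :
    ∃ x x' : ι → ZMod 2, x ∉ Submodule.span (ZMod 2) (Set.range v) ∧
      x' ∉ Submodule.span (ZMod 2) (Set.range v') ∧ ∀ j, x ⬝ᵥ w j = x' ⬝ᵥ w' j := by
  by_cases hA : LinearMap.ker (ev w) ≤ Submodule.span (ZMod 2) (Set.range v)
  · obtain ⟨x, hx⟩ : ∃ x, x ∉ Submodule.span (ZMod 2) (Set.range v) := by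
      by_contra h
      push Not at h
      have h1 : Submodule.span (ZMod 2) (Set.range v) = ⊤ := by
        rw [eq_top_iff]; intro x _; exact h x
      have h2 := finrank_span_eq_card hv
      rw [h1, finrank_top, finrank_fintype_fun_eq_card] at h2
      omega
    obtain ⟨x', hx'⟩ := ev_surj w' hw' (ev w x)
    refine ⟨x, x', hx, fun hc => hx ?_, fun j => ?_⟩
    · rw [← Fintype.range_linearCombination] at hc
      obtain ⟨c, rfl⟩ := hc
      have h1 := LinearMap.congr_fun (gram_comp v v' w w' hG) c
      simp only [LinearMap.comp_apply] at h1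
      rw [hx'] at h1
      have h2 : x - Fintype.linearCombination (ZMod 2) v c ∈ LinearMap.ker (ev w) := by
        rw [LinearMap.mem_ker, map_sub, h1, sub_self]
      have h3 := hA h2
      have h4 : Fintype.linearCombination (ZMod 2) v c ∈
          Submodule.span (ZMod 2) (Set.range v) := by
        rw [← Fintype.range_linearCombination]; exact ⟨c, rfl⟩
      have := Submodule.add_mem _ h3 h4
      rwa [sub_add_cancel] at this
    · have := congrFun hx' j
      rw [ev_apply, ev_apply] at this
      exact this.symm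
  · obtain ⟨x, hx1, hx2⟩ := SetLike.not_le_iff_exists.1 hA
    have hB : ¬ LinearMap.ker (ev w') ≤ Submodule.span (ZMod 2) (Set.range v') := by
      intro hB
      have h1 := finrank_ker_inf v w hv
      have h2 := finrank_ker_inf v' w' hv'
      rw [← gram_comp v v' w w' hG, ← h1, inf_eq_left.2 hB] at h2
      have h3 := finrank_ker_ev w hw
      have h4 := finrank_ker_ev w' hw'
      have h5 : finrank (ZMod 2) ((LinearMap.ker (ev w) ⊓
          Submodule.span (ZMod 2) (Set.range v) : Submodule (ZMod 2) (ι → ZMod 2))) =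
          finrank (ZMod 2) (LinearMap.ker (ev w)) := by omega
      have h6 := Submodule.eq_of_le_of_finrank_eq (inf_le_left : LinearMap.ker (ev w) ⊓
          Submodule.span (ZMod 2) (Set.range v) ≤ LinearMap.ker (ev w)) h5
      exact hA (inf_eq_left.1 h6)
    obtain ⟨x', hx1', hx2'⟩ := SetLike.not_le_iff_exists.1 hB
    refine ⟨x, x', hx2, hx2', fun j => ?_⟩
    have h1 := congrFun (LinearMap.mem_ker.1 hx1) j
    have h2 := congrFun (LinearMap.mem_ker.1 hx1') j
    rw [ev_apply] at h1 h2
    rw [h1, h2]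

/-- A linear automorphism and its contragredient. -/
theorem exists_contra (g : (ι → ZMod 2) ≃ₗ[ZMod 2] (ι → ZMod 2)) :
    ∃ g' : (ι → ZMod 2) ≃ₗ[ZMod 2] (ι → ZMod 2), ∀ x y, g x ⬝ᵥ g' y = x ⬝ᵥ y := by
  let M := LinearMap.toMatrix' g.toLinearMap
  let N := LinearMap.toMatrix' g.symm.toLinearMap
  have hM : ∀ x, M *ᵥ x = g x := fun x => by
    rw [← toLin'_apply]; simp [M]
  have hN : ∀ x, N *ᵥ x = g.symm x := fun x => by
    rw [← toLin'_apply]; simp [N]
  have hNM : N * M = 1 := by
    rw [← LinearMap.toMatrix'_comp]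
    simp
  have hMN : M * N = 1 := by
    rw [← LinearMap.toMatrix'_comp]
    simp
  have e1 : ∀ y, Nᵀ *ᵥ (Mᵀ *ᵥ y) = y := by
    intro y
    rw [mulVec_mulVec, ← transpose_mul, hMN, transpose_one, one_mulVec]
  have e2 : ∀ y, Mᵀ *ᵥ (Nᵀ *ᵥ y) = y := by
    intro y
    rw [mulVec_mulVec, ← transpose_mul, hNM, transpose_one, one_mulVec]
  refine ⟨LinearEquiv.ofLinearMap (toLin' Nᵀ) (toLin' Mᵀ) (LinearMap.ext fun y => by
      rw [LinearMap.comp_apply, toLin'_apply, toLin'_apply]; exact e1 y)
    (LinearMap.ext fun y => by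
      rw [LinearMap.comp_apply, toLin'_apply, toLin'_apply]; exact e2 y), fun x y => ?_⟩
  show g x ⬝ᵥ (toLin' Nᵀ y) = _
  rw [toLin'_apply, dotProduct_mulVec, vecMul_transpose, hN, LinearEquiv.symm_apply_apply]

/-- **Extension of partial isomorphisms** of configurations of independent vectors and independent
functionals. -/
theorem witt {J : Type} [Fintype J] [DecidableEq J] (w w' : J → ι → ZMod 2)
    (hw : LinearIndependent (ZMod 2) w) (hw' : LinearIndependent (ZMod 2) w') :
    ∀ (k : ℕ) (I : Type) [Fintype I] (v v' : I → ι → ZMod 2),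
      Fintype.card I + k = Fintype.card ι → LinearIndependent (ZMod 2) v →
      LinearIndependent (ZMod 2) v' → (∀ i j, v i ⬝ᵥ w j = v' i ⬝ᵥ w' j) →
      ∃ g g' : (ι → ZMod 2) ≃ₗ[ZMod 2] (ι → ZMod 2), (∀ x y, g x ⬝ᵥ g' y = x ⬝ᵥ y) ∧
        (∀ i, g (v i) = v' i) ∧ ∀ j, g' (w j) = w' j := by
  intro k
  induction k with
  | zero =>
    intro I _ v v' hk hv hv' hG
    have hfr : Fintype.card I = finrank (ZMod 2) (ι → ZMod 2) := by
      rw [finrank_fintype_fun_eq_card]; omega
    by_cases hI : Nonempty I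
    · let b := basisOfLinearIndependentOfCardEqFinrank hv hfr
      let b' := basisOfLinearIndependentOfCardEqFinrank hv' hfr
      have hb : ∀ i, b i = v i := fun i => by
        simp [b]
      have hb' : ∀ i, b' i = v' i := fun i => by
        simp [b']
      let g := b.equiv b' (Equiv.refl I)
      have hg : ∀ i, g (v i) = v' i := by
        intro i
        rw [← hb, Basis.equiv_apply, Equiv.refl_apply, hb']
      obtain ⟨g', hg'⟩ := exists_contra g
      refine ⟨g, g', hg', hg, fun j => ?_⟩
      have h1 : ∀ i, v' i ⬝ᵥ g' (w j) = v' i ⬝ᵥ w' j := by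
        intro i
        rw [← hg, hg', hG, hg]
      have h2 : ∀ x : ι → ZMod 2, x ⬝ᵥ g' (w j) = x ⬝ᵥ w' j := by
        intro x
        have h3 : x ∈ Submodule.span (ZMod 2) (Set.range v') := by
          have : Submodule.span (ZMod 2) (Set.range b') = ⊤ := b'.span_eq
          have h4 : (b' : I → ι → ZMod 2) = v' := funext hb'
          rw [h4] at this
          rw [this]; trivial
        induction h3 using Submodule.span_induction with
        | mem x hx =>
          obtain ⟨i, rfl⟩ := hx
          exact h1 i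
        | zero => rw [zero_dotProduct, zero_dotProduct]
        | add x y _ _ h5 h6 => rw [add_dotProduct, add_dotProduct, h5, h6]
        | smul c x _ h5 => rw [smul_dotProduct, smul_dotProduct, h5]
      funext i
      have := h2 (Pi.single i 1)
      rwa [single_one_dotProduct, single_one_dotProduct] at this
    · have hI' : IsEmpty I := not_nonempty_iff.1 hI
      have hι : IsEmpty ι := by
        rw [← Fintype.card_eq_zero_iff]
        have := Fintype.card_eq_zero (α := I)
        omega
      refine ⟨LinearEquiv.refl _ _, LinearEquiv.refl _ _, fun x y => rfl,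
        fun i => (hI'.false i).elim, fun j => ?_⟩
      funext i
      exact (hι.false i).elim
  | succ k ih =>
    intro I _ v v' hk hv hv' hG
    obtain ⟨x, x', hx, hx', hxx⟩ := witt_step v v' w w' hv hv' hw hw' hG (by omega)
    obtain ⟨g, g', h1, h2, h3⟩ := ih (Option I) (fun o => o.elim x v) (fun o => o.elim x' v')
      (by rw [Fintype.card_option]; omega)
      (linearIndependent_option.2 ⟨hv, hx⟩) (linearIndependent_option.2 ⟨hv', hx'⟩) (by
        rintro (_ | i) j
        · exact hxx j
        · exact hG i j)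
    exact ⟨g, g', h1, fun i => h2 (some i), h3⟩

theorem witt' {I J : Type} [Fintype I] [Fintype J] [DecidableEq J]
    (v v' : I → ι → ZMod 2) (w w' : J → ι → ZMod 2)
    (hv : LinearIndependent (ZMod 2) v) (hv' : LinearIndependent (ZMod 2) v')
    (hw : LinearIndependent (ZMod 2) w) (hw' : LinearIndependent (ZMod 2) w')
    (hG : ∀ i j, v i ⬝ᵥ w j = v' i ⬝ᵥ w' j) :
    ∃ g g' : (ι → ZMod 2) ≃ₗ[ZMod 2] (ι → ZMod 2), (∀ x y, g x ⬝ᵥ g' y = x ⬝ᵥ y) ∧
      (∀ i, g (v i) = v' i) ∧ ∀ j, g' (w j) = w' j := by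
  have h1 : Fintype.card I ≤ Fintype.card ι := by
    have := hv.fintype_card_le_finrank
    rwa [finrank_fintype_fun_eq_card] at this
  exact witt w w' hw hw' (Fintype.card ι - Fintype.card I) I v v' (by omega) hv hv' hG

/-- Solutions of linear equations outside of a small subspace. -/
theorem exists_avoid {J : Type} [Fintype J] [DecidableEq J] (w : J → ι → ZMod 2)
    (hw : LinearIndependent (ZMod 2) w) (c : J → ZMod 2)
    (P : Submodule (ZMod 2) (ι → ZMod 2))
    (hP : finrank (ZMod 2) P + Fintype.card J < Fintype.card ι) :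
    ∃ x, x ∉ P ∧ ∀ j, x ⬝ᵥ w j = c j := by
  obtain ⟨x0, hx0⟩ := ev_surj w hw c
  have h0 : ∀ j, x0 ⬝ᵥ w j = c j := fun j => by rw [← ev_apply, hx0]
  by_cases hx : x0 ∈ P
  swap
  · exact ⟨x0, hx, h0⟩
  have h1 : ¬ LinearMap.ker (ev w) ≤ P := by
    intro h
    have h2 := Submodule.finrank_mono h
    have h3 := finrank_ker_ev w hw
    omega
  obtain ⟨z, hz1, hz2⟩ := SetLike.not_le_iff_exists.1 h1
  refine ⟨x0 + z, fun h => hz2 ?_, fun j => ?_⟩
  · have := Submodule.sub_mem _ h hx
    rwa [add_sub_cancel_left] at this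
  · have h2 := congrFun (LinearMap.mem_ker.1 hz1) j
    rw [ev_apply] at h2
    rw [add_dotProduct, h0, h2]
    simp

end Vale.Agent.P183.H330G
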