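import Vale.Agent.P183.H330G.Geo

/-!
Stacking gated universal spaces: wreath products.
-/

namespace Vale.Agent.P183.H330G

open Vale.Agent.P183 Vale.Agent.P183.H330

variable {L : Type} [Lattice L] {a u b : L}

section

variable (S1 : Si a u) (S2 : Si u b)

open Classical in
/-- The distance of the stacked space. -/
noncomputable def sd (P Q : S2.X × S1.X) : L :=
  if P.1 = Q.1 then S1.d P.2 Q.2 else S2.d P.1 Q.1

theorem sd_same {P Q : S2.X × S1.X} (h : P.1 = Q.1) : sd S1 S2 P Q = S1.d P.2 Q.2 := if_pos h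

theorem sd_diff {P Q : S2.X × S1.X} (h : P.1 ≠ Q.1) : sd S1 S2 P Q = S2.d P.1 Q.1 := if_neg h

theorem sd_le_u (P Q : S2.X × S1.X) : sd S1 S2 P Q ≤ u ↔ P.1 = Q.1 := by
  constructor
  · intro h
    by_contra hne
    rw [sd_diff S1 S2 hne] at h
    exact hne ((S2.self _ _).1 (le_antisymm h (S2.ge _ _)))
  · intro h
    rw [sd_same S1 S2 h]
    exact S1.le _ _

/-- Comparison with elements above `u`. -/
theorem sd_le_iff (P Q : S2.X × S1.X) {l : L} (hl : u ≤ l) :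
    sd S1 S2 P Q ≤ l ↔ S2.d P.1 Q.1 ≤ l := by
  by_cases h : P.1 = Q.1
  · rw [sd_same S1 S2 h, (S2.self _ _).2 h]
    exact ⟨fun _ => hl, fun _ => (S1.le _ _).trans hl⟩
  · rw [sd_diff S1 S2 h]

/-- The stacked space. -/
noncomputable abbrev stk (hau : a ≤ u) (hub : u ≤ b) : Si a b where
  X := S2.X × S1.X
  fin := by
    have := S1.fin
    have := S2.fin
    infer_instance
  ne := by
    obtain ⟨x⟩ := S1.ne
    obtain ⟨y⟩ := S2.ne
    exact ⟨(y, x)⟩
  d := sd S1 S2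
  ge P Q := by
    by_cases h : P.1 = Q.1
    · rw [sd_same S1 S2 h]; exact S1.ge _ _
    · rw [sd_diff S1 S2 h]; exact hau.trans (S2.ge _ _)
  le P Q := by
    by_cases h : P.1 = Q.1
    · rw [sd_same S1 S2 h]; exact (S1.le _ _).trans hub
    · rw [sd_diff S1 S2 h]; exact S2.le _ _
  self P Q := by
    constructor
    · intro h
      have h1 : P.1 = Q.1 := (sd_le_u S1 S2 P Q).1 (h.le.trans hau)
      rw [sd_same S1 S2 h1] at h
      exact Prod.ext h1 ((S1.self _ _).1 h)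
    · rintro rfl
      rw [sd_same S1 S2 rfl]
      exact (S1.self _ _).2 rfl
  symm P Q := by
    by_cases h : P.1 = Q.1
    · rw [sd_same S1 S2 h, sd_same S1 S2 h.symm, S1.symm]
    · rw [sd_diff S1 S2 h, sd_diff S1 S2 (fun h' => h h'.symm), S2.symm]
  tri P Q R := by
    by_cases hPQ : P.1 = Q.1
    · by_cases hQR : Q.1 = R.1
      · rw [sd_same S1 S2 hPQ, sd_same S1 S2 hQR, sd_same S1 S2 (hPQ.trans hQR)]
        exact S1.tri _ _ _
      · refine le_trans ?_ le_sup_right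
        rw [sd_diff S1 S2 hQR, sd_diff S1 S2 (fun h => hQR (hPQ.symm.trans h)), hPQ]
    · by_cases hQR : Q.1 = R.1
      · refine le_trans ?_ le_sup_left
        rw [sd_diff S1 S2 hPQ, sd_diff S1 S2 (fun h => hPQ (h.trans hQR.symm)), hQR]
      · rw [sd_diff S1 S2 hPQ, sd_diff S1 S2 hQR]
        by_cases hPR : P.1 = R.1
        · rw [sd_same S1 S2 hPR]
          exact ((S1.le _ _).trans (S2.ge _ _)).trans le_sup_left
        · rw [sd_diff S1 S2 hPR]
          exact S2.tri _ _ _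

variable (B1 : Subgroup (Equiv.Perm S1.X)) (B2 : Subgroup (Equiv.Perm S2.X))

/-- The wreath product. -/
def wr : Subgroup (Equiv.Perm (S2.X × S1.X)) where
  carrier := {π | ∃ β ∈ B2, ∃ γ : S2.X → Equiv.Perm S1.X, (∀ p, γ p ∈ B1) ∧
    ∀ P, π P = (β P.1, γ P.1 P.2)}
  one_mem' := ⟨1, B2.one_mem, fun _ => 1, fun _ => B1.one_mem, fun _ => rfl⟩
  mul_mem' := by
    rintro π ρ ⟨β, hβ, γ, hγ, h1⟩ ⟨β', hβ', γ', hγ', h2⟩
    refine ⟨β * β', B2.mul_mem hβ hβ', fun p => γ (β' p) * γ' p,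
      fun p => B1.mul_mem (hγ _) (hγ' _), fun P => ?_⟩
    show π (ρ P) = _
    rw [h2, h1]
    rfl
  inv_mem' := by
    rintro π ⟨β, hβ, γ, hγ, h1⟩
    refine ⟨β⁻¹, B2.inv_mem hβ, fun p => (γ (β⁻¹ p))⁻¹, fun p => B1.inv_mem (hγ _), fun P => ?_⟩
    obtain ⟨Q, rfl⟩ := π.surjective P
    have e : π⁻¹ (π Q) = Q := π.symm_apply_apply Q
    rw [e, h1]
    show Q = (β⁻¹ (β Q.1), (γ (β⁻¹ (β Q.1)))⁻¹ (γ Q.1 Q.2))
    have e1 : β⁻¹ (β Q.1) = Q.1 := β.symm_apply_apply _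
    have e2 : (γ Q.1)⁻¹ (γ Q.1 Q.2) = Q.2 := (γ Q.1).symm_apply_apply _
    rw [e1, e2]

theorem mem_wr {π : Equiv.Perm (S2.X × S1.X)} : π ∈ wr S1 S2 B1 B2 ↔
    ∃ β ∈ B2, ∃ γ : S2.X → Equiv.Perm S1.X, (∀ p, γ p ∈ B1) ∧
      ∀ P, π P = (β P.1, γ P.1 P.2) := Iff.rfl

theorem exists_wr (β : Equiv.Perm S2.X) (hβ : β ∈ B2) (γ : S2.X → Equiv.Perm S1.X)
    (hγ : ∀ p, γ p ∈ B1) : ∃ π ∈ wr S1 S2 B1 B2, ∀ P, π P = (β P.1, γ P.1 P.2) := by
  let π : Equiv.Perm (S2.X × S1.X) :=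
    { toFun := fun P => (β P.1, γ P.1 P.2)
      invFun := fun P => (β.symm P.1, (γ (β.symm P.1)).symm P.2)
      left_inv := fun P => by simp
      right_inv := fun P => by simp }
  exact ⟨π, ⟨β, hβ, γ, hγ, fun P => rfl⟩, fun P => rfl⟩

end

theorem stack_int {S1 : Si a u} {S2 : Si u b} (hau : a ≤ u) (hub : u ≤ b)
    (hcmp : ∀ x, a ≤ x → x ≤ b → x ≤ u ∨ u ≤ x)
    {B1 : Subgroup (Equiv.Perm S1.X)} {B2 : Subgroup (Equiv.Perm S2.X)}
    (h1 : ∀ ω, IntI S1 B1 ω) (h2 : ∀ ω, IntI S2 B2 ω) (ω : S2.X × S1.X) :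
    IntI (stk S1 S2 hau hub) (wr S1 S2 B1 B2) ω := by
  classical
  obtain ⟨p0, x0⟩ := ω
  have hd : ∀ P Q, (stk S1 S2 hau hub).d P Q = sd S1 S2 P Q := fun _ _ => rfl
  constructor
  · intro W hWB hW
    -- elements acting on one block only
    have hblk : ∀ (p : S2.X) (γ : Equiv.Perm S1.X), γ ∈ B1 → ∃ π ∈ wr S1 S2 B1 B2,
        ∀ P, π P = (P.1, if P.1 = p then γ P.2 else P.2) := by
      intro p γ hγ
      obtain ⟨π, hπ, h⟩ := exists_wr S1 S2 B1 B2 1 B2.one_mem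
        (fun q => if q = p then γ else 1) (fun q => by
          show (if q = p then γ else 1) ∈ B1
          split_ifs
          · exact hγ
          · exact B1.one_mem)
      refine ⟨π, hπ, fun P => ?_⟩
      rw [h]
      show (P.1, (if P.1 = p then γ else 1) P.2) = _
      by_cases hp : P.1 = p
      · rw [if_pos hp, if_pos hp]
      · rw [if_neg hp, if_neg hp]; rfl
    by_cases hmove : ∃ w ∈ W, (w (p0, x0)).1 ≠ p0
    · obtain ⟨w, hw, hwne⟩ := hmove
      obtain ⟨β, hβ, γ, hγ, hwP⟩ := (mem_wr S1 S2 B1 B2).1 (hWB hw)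
      have hβne : β p0 ≠ p0 := by rw [hwP] at hwne; exact hwne
      -- all elements acting on the block of `p0` only
      have hb0 : ∀ (δ : Equiv.Perm S1.X), δ ∈ B1 → ∃ π ∈ W,
          ∀ P, π P = (P.1, if P.1 = p0 then δ P.2 else P.2) := by
        intro δ hδ
        obtain ⟨π, hπ, hπP⟩ := hblk (β p0) (γ p0 * δ * (γ p0)⁻¹)
          (B1.mul_mem (B1.mul_mem (hγ _) hδ) (B1.inv_mem (hγ _)))
        have hπW : π ∈ W := hW π hπ (by
          rw [hπP, if_neg (fun h => hβne h.symm)])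
        refine ⟨w⁻¹ * π * w, W.mul_mem (W.mul_mem (W.inv_mem hw) hπW) hw, fun P => ?_⟩
        show w⁻¹ (π (w P)) = _
        rw [Equiv.Perm.inv_eq_iff_eq, hwP, hπP, hwP]
        show (β P.1, if β P.1 = β p0 then (γ p0 * δ * (γ p0)⁻¹) (γ P.1 P.2) else γ P.1 P.2) =
          (β P.1, γ P.1 (if P.1 = p0 then δ P.2 else P.2))
        by_cases hp : P.1 = p0
        · rw [if_pos (congrArg β hp), if_pos hp, hp]
          show (β p0, γ p0 (δ ((γ p0)⁻¹ (γ p0 P.2)))) = _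
          have e2 : (γ p0)⁻¹ (γ p0 P.2) = P.2 := (γ p0).symm_apply_apply _
          rw [e2]
        · rw [if_neg (fun h => hp (β.injective h)), if_neg hp]
      let W2 : Subgroup (Equiv.Perm S2.X) :=
        { carrier := {β | ∃ π ∈ W, β ∈ B2 ∧ ∀ P, (π P).1 = β P.1}
          one_mem' := ⟨1, W.one_mem, B2.one_mem, fun _ => rfl⟩
          mul_mem' := by
            rintro β β' ⟨π, h3, h4, h5⟩ ⟨π', h6, h7, h8⟩
            refine ⟨π * π', W.mul_mem h3 h6, B2.mul_mem h4 h7, fun P => ?_⟩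
            show (π (π' P)).1 = _
            rw [h5, h8]; rfl
          inv_mem' := by
            rintro β ⟨π, h3, h4, h5⟩
            refine ⟨π⁻¹, W.inv_mem h3, B2.inv_mem h4, fun P => ?_⟩
            obtain ⟨Q, rfl⟩ := π.surjective P
            have e : π⁻¹ (π Q) = Q := π.symm_apply_apply Q
            rw [e, h5]
            exact (β.symm_apply_apply _).symm }
      obtain ⟨c, hc1, hc2, hc3⟩ := (h2 p0).1 W2 (by
        rintro β ⟨π, _, h, _⟩
        exact h) (by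
        intro β hβ hβp
        obtain ⟨π, hπ, hπP⟩ := exists_wr S1 S2 B1 B2 β hβ (fun _ => 1) (fun _ => B1.one_mem)
        refine ⟨π, hW π hπ ?_, hβ, fun P => by rw [hπP]⟩
        rw [hπP]
        show (β p0, x0) = _
        rw [hβp])
      refine ⟨c, hau.trans hc1, hc2, fun π hπ => ?_⟩
      obtain ⟨β', hβ', γ', hγ', hπP⟩ := (mem_wr S1 S2 B1 B2).1 hπ
      rw [hd, sd_le_iff S1 S2 _ _ hc1]
      have e1 : (π (p0, x0)).1 = β' p0 := by rw [hπP]
      show _ ↔ S2.d (π (p0, x0)).1 p0 ≤ c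
      rw [e1, ← hc3 β' hβ']
      constructor
      · intro h
        exact ⟨π, h, hβ', fun P => by rw [hπP]⟩
      · rintro ⟨ρ, hρ, _, hρP⟩
        obtain ⟨β'', hβ'', γ'', hγ'', hρP'⟩ := (mem_wr S1 S2 B1 B2).1 (hWB hρ)
        have hββ : β'' = β' := by
          ext p
          have := hρP (p, x0)
          rw [hρP'] at this
          exact this
        subst hββ
        -- `ρ⁻¹ π` acts trivially on the blocks
        obtain ⟨τ, hτ, hτP⟩ := hb0 ((γ'' p0)⁻¹ * γ' p0) (B1.mul_mem (B1.inv_mem (hγ'' _)) (hγ' _))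
        have h5 : (ρ * τ)⁻¹ * π ∈ W := by
          refine hW _ ((wr S1 S2 B1 B2).mul_mem ((wr S1 S2 B1 B2).inv_mem
            (hWB (W.mul_mem hρ hτ))) hπ) ?_
          show (ρ * τ)⁻¹ (π (p0, x0)) = (p0, x0)
          rw [Equiv.Perm.inv_eq_iff_eq]
          show _ = ρ (τ (p0, x0))
          rw [hτP, hρP', hπP, if_pos rfl]
          show (β'' p0, γ' p0 x0) = (β'' p0, γ'' p0 ((γ'' p0)⁻¹ (γ' p0 x0)))
          rw [app_inv]
        have := W.mul_mem (W.mul_mem hρ hτ) h5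
        rwa [mul_inv_cancel_left] at this
    · push Not at hmove
      let W1 : Subgroup (Equiv.Perm S1.X) :=
        { carrier := {γ | γ ∈ B1 ∧ ∃ w ∈ W, ∀ x, w (p0, x) = (p0, γ x)}
          one_mem' := ⟨B1.one_mem, 1, W.one_mem, fun _ => rfl⟩
          mul_mem' := by
            rintro γ γ' ⟨h3, w, hw, h4⟩ ⟨h5, w', hw', h6⟩
            refine ⟨B1.mul_mem h3 h5, w * w', W.mul_mem hw hw', fun x => ?_⟩
            show w (w' (p0, x)) = _
            rw [h6, h4]; rfl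
          inv_mem' := by
            rintro γ ⟨h3, w, hw, h4⟩
            refine ⟨B1.inv_mem h3, w⁻¹, W.inv_mem hw, fun x => ?_⟩
            rw [Equiv.Perm.inv_eq_iff_eq, h4, app_inv] }
      obtain ⟨c, hc1, hc2, hc3⟩ := (h1 x0).1 W1 (by
        rintro γ ⟨h, _⟩
        exact h) (by
        intro γ hγ hγx
        obtain ⟨π, hπ, hπP⟩ := hblk p0 γ hγ
        refine ⟨hγ, π, hW π hπ ?_, fun x => ?_⟩
        · rw [hπP, if_pos rfl]
          show (p0, γ x0) = _
          rw [hγx]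
        · rw [hπP, if_pos rfl])
      refine ⟨c, hc1, hc2.trans hub, fun π hπ => ?_⟩
      obtain ⟨β', hβ', γ', hγ', hπP⟩ := (mem_wr S1 S2 B1 B2).1 hπ
      rw [hd]
      constructor
      · intro h
        have h3 := hmove π h
        have hβp : β' p0 = p0 := by rw [hπP] at h3; exact h3
        have h4 : sd S1 S2 (π (p0, x0)) (p0, x0) = S1.d (γ' p0 x0) x0 := by
          rw [sd_same S1 S2 h3, hπP]
        rw [h4, ← hc3 _ (hγ' p0)]
        refine ⟨hγ' p0, π, h, fun x => ?_⟩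
        rw [hπP]
        show (β' p0, γ' p0 x) = _
        rw [hβp]
      · intro h
        have h3 : (π (p0, x0)).1 = p0 := (sd_le_u S1 S2 _ _).1 (h.trans hc2)
        have hβp : β' p0 = p0 := by rw [hπP] at h3; exact h3
        have h4 : sd S1 S2 (π (p0, x0)) (p0, x0) = S1.d (γ' p0 x0) x0 := by
          rw [sd_same S1 S2 h3, hπP]
        rw [h4, ← hc3 _ (hγ' p0)] at h
        obtain ⟨_, w, hw, hwP⟩ := h
        have h5 : w⁻¹ * π ∈ W := by
          refine hW _ ((wr S1 S2 B1 B2).mul_mem ((wr S1 S2 B1 B2).inv_mem (hWB hw)) hπ) ?_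
          show w⁻¹ (π (p0, x0)) = (p0, x0)
          rw [Equiv.Perm.inv_eq_iff_eq, hwP, hπP]
          show (β' p0, γ' p0 x0) = _
          rw [hβp]
        have := W.mul_mem hw h5
        rwa [mul_inv_cancel_left] at this
  · -- generation
    intro e e' he1 he2 he1' he2' h
    -- from elements of `B1`
    have k1 : ∀ γ ∈ B1, S1.d (γ x0) x0 ≤ e → S1.d (γ x0) x0 ≤ e' := by
      intro γ hγ hγe
      obtain ⟨π, hπ, hπP⟩ := exists_wr S1 S2 B1 B2 1 B2.one_mem (fun _ => γ) (fun _ => hγ)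
      have h3 : (stk S1 S2 hau hub).d (π (p0, x0)) (p0, x0) = S1.d (γ x0) x0 := by
        rw [hd, sd_same S1 S2 (by rw [hπP]; rfl), hπP]
      have h4 := h π hπ
      rw [h3] at h4
      exact h4 hγe
    have k2 : ∀ β ∈ B2, S2.d (β p0) p0 ≤ e → β p0 = p0 ∨ S2.d (β p0) p0 ≤ e' := by
      intro β hβ hβe
      by_cases hp : β p0 = p0
      · exact Or.inl hp
      obtain ⟨π, hπ, hπP⟩ := exists_wr S1 S2 B1 B2 β hβ (fun _ => 1) (fun _ => B1.one_mem)
      have h3 : (stk S1 S2 hau hub).d (π (p0, x0)) (p0, x0) = S2.d (β p0) p0 := by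
        rw [hd, sd_diff S1 S2 (by rw [hπP]; exact hp), hπP]
      have h4 := h π hπ
      rw [h3] at h4
      exact Or.inr (h4 hβe)
    rcases hcmp e he1 he2 with heu | heu
    · rcases hcmp e' he1' he2' with heu' | heu'
      · exact (h1 x0).2 e e' he1 heu he1' heu' k1
      · exact heu.trans heu'
    · rcases hcmp e' he1' he2' with heu' | heu'
      · have h3 : e ≤ u := by
          refine (h2 p0).2 e u heu he2 le_rfl hub fun β hβ hβe => ?_
          rcases k2 β hβ hβe with h4 | h4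
          · rw [h4, (S2.self _ _).2 rfl]
          · exact h4.trans heu'
        exact (h1 x0).2 e e' he1 h3 he1' heu' k1
      · refine (h2 p0).2 e e' heu he2 heu' he2' fun β hβ hβe => ?_
        rcases k2 β hβ hβe with h4 | h4
        · rw [h4, (S2.self _ _).2 rfl]
          exact heu'
        · exact h4

theorem stack_lev {S1 : Si a u} {S2 : Si u b} (hau : a ≤ u) (hub : u ≤ b)
    (hcmp : ∀ x, a ≤ x → x ≤ b → x ≤ u ∨ u ≤ x)
    {B1 : Subgroup (Equiv.Perm S1.X)} {B2 : Subgroup (Equiv.Perm S2.X)} {n : ℕ}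
    (h1 : LevI S1 B1 n) (h2 : LevI S2 B2 n) :
    LevI (stk S1 S2 hau hub) (wr S1 S2 B1 B2) n := by
  classical
  intro A _ hA δ hge hle hself hsymm htri
  -- the upper distance
  obtain ⟨i2, hi2, hg2, hx2⟩ := h2 A hA (fun x y => δ x y ⊔ u) (fun _ _ => le_sup_right)
    (fun x y => sup_le (hle x y) hub) (fun x => by rw [hself]; exact sup_eq_right.2 hau)
    (fun x y => by rw [hsymm]) (fun x y z => by
      refine sup_le ((htri x y z).trans (sup_le_sup le_sup_left le_sup_left)) ?_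
      exact le_sup_right.trans le_sup_left)
  -- the lower distance
  have hlow : ∀ x y, (δ x y ≤ u ∧ δ x y ⊓ u = δ x y) ∨ (u ≤ δ x y ∧ δ x y ⊓ u = u) := by
    intro x y
    rcases hcmp _ (hge x y) (hle x y) with h | h
    · exact Or.inl ⟨h, inf_eq_left.2 h⟩
    · exact Or.inr ⟨h, inf_eq_right.2 h⟩
  obtain ⟨i1, hi1, hg1, hx1⟩ := h1 A hA (fun x y => δ x y ⊓ u) (fun x y => le_inf (hge x y) hau)
    (fun _ _ => inf_le_right) (fun x => by rw [hself]; exact inf_eq_left.2 hau)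
    (fun x y => by rw [hsymm]) (fun x y z => by
      rcases hlow x y with ⟨h3, h4⟩ | ⟨h3, h4⟩
      · rcases hlow y z with ⟨h5, h6⟩ | ⟨h5, h6⟩
        · rw [h4, h6]
          exact inf_le_left.trans (htri x y z)
        · rw [h6]; exact inf_le_right.trans le_sup_right
      · rw [h4]; exact inf_le_right.trans le_sup_left)
  have hblk : ∀ x y, i2 x = i2 y ↔ δ x y ≤ u := by
    intro x y
    rw [← S2.self, hi2]
    exact ⟨fun h => le_sup_left.trans h.le, fun h => sup_eq_right.2 h⟩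
  refine ⟨fun x => (i2 x, i1 x), fun x y => ?_, ?_, ?_⟩
  · show sd S1 S2 _ _ = _
    by_cases h : i2 x = i2 y
    · have h3 := (hblk x y).1 h
      rw [sd_same S1 S2 h, hi1]
      exact inf_eq_left.2 h3
    · rw [sd_diff S1 S2 h, hi2]
      have h3 : ¬ δ x y ≤ u := fun h' => h ((hblk x y).2 h')
      rcases hcmp _ (hge x y) (hle x y) with h' | h'
      · exact absurd h' h3
      · exact sup_eq_left.2 h'
  · rintro ⟨p, x⟩ y z l l' hl1 hl2 hl1' hl2' h h'
    change sd S1 S2 (p, x) (i2 y, i1 y) ≤ l at h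
    change sd S1 S2 (p, x) (i2 z, i1 z) ≤ l' at h'
    show ∃ c, sd S1 S2 (p, x) (i2 c, i1 c) ≤ l ⊓ l'
    rcases hcmp l hl1 hl2 with hl | hl
    · rcases hcmp l' hl1' hl2' with hl' | hl'
      · by_cases hu : u ≤ l
        · exact ⟨z, le_inf (h'.trans (hl'.trans hu)) h'⟩
        · have e1 : p = i2 y := (sd_le_u S1 S2 _ _).1 (h.trans hl)
          have e2 : p = i2 z := (sd_le_u S1 S2 _ _).1 (h'.trans hl')
          rw [sd_same S1 S2 e1] at h
          rw [sd_same S1 S2 e2] at h'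
          obtain ⟨c, hc⟩ := hg1 x y z l l' hl1 hl hl1' hl' h h'
          refine ⟨c, ?_⟩
          have e3 : δ c y ⊓ u ≤ l := by
            rw [← hi1]
            refine (S1.tri _ x _).trans (sup_le ?_ h)
            rw [S1.symm]; exact hc.trans inf_le_left
          have e4 : δ c y ≤ u := by
            rcases hlow c y with ⟨h5, _⟩ | ⟨_, h6⟩
            · exact h5
            · rw [h6] at e3; exact absurd e3 hu
          have e5 : p = i2 c := e1.trans ((hblk c y).2 e4).symm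
          rw [sd_same S1 S2 e5]
          exact hc
      · exact ⟨y, le_inf h (h.trans (hl.trans hl'))⟩
    · rcases hcmp l' hl1' hl2' with hl' | hl'
      · exact ⟨z, le_inf (h'.trans (hl'.trans hl)) h'⟩
      · rw [sd_le_iff S1 S2 _ _ hl] at h
        rw [sd_le_iff S1 S2 _ _ hl'] at h'
        obtain ⟨c, hc⟩ := hg2 p y z l l' hl hl2 hl' hl2' h h'
        exact ⟨c, (sd_le_iff S1 S2 _ _ (le_inf hl hl')).2 hc⟩
  · intro A' σ hσ hinc
    obtain ⟨β, hβ, hβσ⟩ := hx2 A' σ (fun x hx y hy => by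
      show δ (σ x) (σ y) ⊔ u = δ x y ⊔ u
      rw [hσ x hx y hy]) (fun x hx y hy l l' hl1 hl2 hl1' hl2' => by
      have key : ∀ s t : A, (∃ c, δ c s ⊔ u ≤ l ∧ δ c t ⊔ u ≤ l') ↔
          ∃ c, δ c s ≤ l ∧ δ c t ≤ l' := fun s t =>
        ⟨fun ⟨c, h3, h4⟩ => ⟨c, le_sup_left.trans h3, le_sup_left.trans h4⟩,
          fun ⟨c, h3, h4⟩ => ⟨c, sup_le h3 hl1, sup_le h4 hl1'⟩⟩
      rw [key, key]
      exact hinc x hx y hy l l' (hau.trans hl1) hl2 (hau.trans hl1') hl2')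
    have hγ : ∀ p : S2.X, ∃ γ ∈ B1, ∀ x ∈ A', i2 x = p → γ (i1 x) = i1 (σ x) := by
      intro p
      obtain ⟨γ, hγ, hγσ⟩ := hx1 {x | x ∈ A' ∧ i2 x = p} σ (fun x hx y hy => by
        show δ (σ x) (σ y) ⊓ u = δ x y ⊓ u
        rw [hσ x hx.1 y hy.1]) (fun x hx y hy l l' hl1 hl2 hl1' hl2' => by
        by_cases hu : u ≤ l
        · refine ⟨fun _ => ⟨σ y, inf_le_right.trans hu, ?_⟩,
            fun _ => ⟨y, inf_le_right.trans hu, ?_⟩⟩
          · rw [hself]; exact inf_le_left.trans hl1'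
          · rw [hself]; exact inf_le_left.trans hl1'
        by_cases hu' : u ≤ l'
        · refine ⟨fun _ => ⟨σ x, ?_, inf_le_right.trans hu'⟩,
            fun _ => ⟨x, ?_, inf_le_right.trans hu'⟩⟩
          · rw [hself]; exact inf_le_left.trans hl1
          · rw [hself]; exact inf_le_left.trans hl1
        have key : ∀ (s c : A) m, ¬ u ≤ m → (δ c s ⊓ u ≤ m ↔ δ c s ≤ m) := by
          intro s c m hm
          rcases hlow c s with ⟨_, h4⟩ | ⟨h3, h4⟩
          · rw [h4]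
          · rw [h4]
            exact ⟨fun h => absurd h hm, fun h => absurd (h3.trans h) hm⟩
        have key2 : ∀ s t : A, (∃ c, δ c s ⊓ u ≤ l ∧ δ c t ⊓ u ≤ l') ↔
            ∃ c, δ c s ≤ l ∧ δ c t ≤ l' := by
          intro s t
          refine exists_congr fun c => ?_
          rw [key s c l hu, key t c l' hu']
        rw [key2, key2]
        exact hinc x hx.1 y hy.1 l l' hl1 (hl2.trans hub) hl1' (hl2'.trans hub))
      exact ⟨γ, hγ, fun x hx hp => hγσ x ⟨hx, hp⟩⟩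
    choose γ hγB hγσ using hγ
    obtain ⟨π, hπ, hπP⟩ := exists_wr S1 S2 B1 B2 β hβ γ hγB
    refine ⟨π, hπ, fun x hx => ?_⟩
    rw [hπP]
    show (β (i2 x), γ (i2 x) (i1 x)) = (i2 (σ x), i1 (σ x))
    rw [hβσ x hx, hγσ (i2 x) x hx rfl]

/-- **Stacking.** -/
theorem goodI_stack (hau : a ≤ u) (hub : u ≤ b) (hcmp : ∀ x, a ≤ x → x ≤ b → x ≤ u ∨ u ≤ x)
    (h1 : GoodI a u) (h2 : GoodI u b) : GoodI a b := by
  intro n
  obtain ⟨S1, B1, a1, a2, a3⟩ := h1 n
  obtain ⟨S2, B2, b1, b2, b3⟩ := h2 n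
  refine ⟨stk S1 S2 hau hub, wr S1 S2 B1 B2, ?_, fun ω => stack_int hau hub hcmp a2 b2 ω,
    stack_lev hau hub hcmp a3 b3⟩
  rintro π ⟨β, hβ, γ, hγ, hπP⟩ P Q
  show sd S1 S2 (π P) (π Q) = sd S1 S2 P Q
  by_cases h : P.1 = Q.1
  · rw [sd_same S1 S2 h, sd_same S1 S2 (by rw [hπP, hπP, h]), hπP, hπP, h]
    exact a1 _ (hγ _) _ _
  · rw [sd_diff S1 S2 h, sd_diff S1 S2 (by
      rw [hπP, hπP]
      exact fun h' => h (β.injective h')), hπP, hπP]
    exact b1 _ hβ _ _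

end Vale.Agent.P183.H330G
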